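import Crest.Agent.N222.C.Defs
import Crest.Agent.N222.C.Glue
import Crest.Agent.N222.C.Alg

-- ▼ part N222/C/Box
section

/-!
# Row 222, part C: Stokes on a box for pull-backs of a top degree form

`bint w O F a b = ∫_{[a,b] ∩ O} w (F x) det DF(x) dx`.
Proof of `box_stokes`: `M i x = (-1)^i · dens w (ins ⁻¹ O) (F ∘ ins i (x i)) (x ∘ succAbove i)` is, on `O`,
the value of the pull-back `F^*(w vol)` on the frame `e_{succAbove i j}`; `extDeriv_pullback` and
`extDeriv_apply` give `∑ ∂_i M_i = 0` (an alternating `(N+1)`-form on `ℝ^N` vanishes); then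
`MeasureTheory.integral_divergence_of_hasFDerivAt_off_countable'`.
-/

set_option autoImplicit false

open Set Filter Topology MeasureTheory

noncomputable section

namespace Crest.Agent.N222.C

variable {N : ℕ}

/-- Jacobian determinant -/
def jac (F : (Fin N → ℝ) → Fin N → ℝ) (x : Fin N → ℝ) : ℝ := (fderiv ℝ F x).det

/-- density of the pull-back, cut off outside `O` -/
def dens (w : (Fin N → ℝ) → ℝ) (O : Set (Fin N → ℝ)) (F : (Fin N → ℝ) → Fin N → ℝ) :
    (Fin N → ℝ) → ℝ := O.indicator fun x => w (F x) * jac F x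

/-- integral over a box -/
def bint (w : (Fin N → ℝ) → ℝ) (O : Set (Fin N → ℝ)) (F : (Fin N → ℝ) → Fin N → ℝ)
    (a b : Fin N → ℝ) : ℝ := ∫ x in Icc a b, dens w O F x

/-- face inclusion -/
def ins (i : Fin (N + 1)) (c : ℝ) (z : Fin N → ℝ) : Fin (N + 1) → ℝ := Fin.insertNth i c z

/-- the volume form -/
def vol (N : ℕ) : (Fin N → ℝ) [⋀^Fin N]→L[ℝ] ℝ :=
  { (Matrix.detRowAlternating : (Fin N → ℝ) [⋀^Fin N]→ₗ[ℝ] ℝ) with
    cont := Continuous.matrix_det (A := fun M : Fin N → Fin N → ℝ => Matrix.of M) continuous_id }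

theorem vol_apply (v : Fin N → Fin N → ℝ) : vol N v = (Matrix.of v).det := rfl

theorem det_eq_vol (L : (Fin N → ℝ) →L[ℝ] Fin N → ℝ) :
    L.det = vol N fun j => L (Pi.single j 1) := by
  rw [vol_apply, ContinuousLinearMap.det, ← LinearMap.det_toMatrix', ← Matrix.det_transpose]
  congr 1

/-- linear part of `ins` -/
def insL (i : Fin (N + 1)) : (Fin N → ℝ) →L[ℝ] Fin (N + 1) → ℝ :=
  ∑ j, (ContinuousLinearMap.proj j : (Fin N → ℝ) →L[ℝ] ℝ).smulRight (Pi.single (i.succAbove j) 1)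

theorem insL_single (i : Fin (N + 1)) (j : Fin N) :
    insL i (Pi.single j 1) = Pi.single (i.succAbove j) 1 := by
  simp [insL, Pi.single_apply]

theorem hasFDerivAt_ins (i : Fin (N + 1)) (c : ℝ) (z : Fin N → ℝ) :
    HasFDerivAt (ins i c) (insL i) z := by
  have : ins i c = fun z : Fin N → ℝ => Pi.single i c + insL i z := by
    funext z k
    rcases Fin.eq_self_or_eq_succAbove i k with rfl | ⟨j, rfl⟩
    · simp [ins, insL, Pi.single_apply]
    · simp [ins, insL, Pi.single_apply]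
  rw [this]
  exact (insL i).hasFDerivAt.const_add _

/-- the pull-back of `w vol` -/
def pb (w : (Fin N → ℝ) → ℝ) (F : (Fin (N + 1) → ℝ) → Fin N → ℝ) (x : Fin (N + 1) → ℝ) :
    (Fin (N + 1) → ℝ) [⋀^Fin N]→L[ℝ] ℝ :=
  (w (F x) • vol N).compContinuousLinearMap (fderiv ℝ F x)

theorem differentiableAt_pb {w : (Fin N → ℝ) → ℝ} (hw : ContDiff ℝ 1 w)
    {F : (Fin (N + 1) → ℝ) → Fin N → ℝ} {x : Fin (N + 1) → ℝ} (hF : ContDiffAt ℝ 2 F x) :
    DifferentiableAt ℝ (pb w F) x :=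
  DifferentiableAt.continuousAlternatingMapCompContinuousLinearMap
    (((hw.differentiable one_ne_zero _).comp x (hF.differentiableAt two_ne_zero)).smul_const _)
    ((hF.fderiv_right (m := 1) le_rfl).differentiableAt one_ne_zero)

theorem extDeriv_pb {w : (Fin N → ℝ) → ℝ} (hw : ContDiff ℝ 1 w)
    {F : (Fin (N + 1) → ℝ) → Fin N → ℝ} {x : Fin (N + 1) → ℝ} (hF : ContDiffAt ℝ 2 F x)
    (v : Fin (N + 1) → Fin (N + 1) → ℝ) : extDeriv (pb w F) x v = 0 := by
  have h := extDeriv_pullback (ω := fun t => w t • vol N)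
    ((hw.differentiable one_ne_zero _).smul_const _) hF (by simp)
  change extDeriv (pb w F) x = _ at h
  rw [h, ContinuousAlternatingMap.compContinuousLinearMap_apply]
  refine (extDeriv (fun t => w t • vol N) (F x)).toAlternatingMap.map_linearDependent _ fun hl => ?_
  simpa using hl.fintype_card_le_finrank

theorem pb_ins {w : (Fin N → ℝ) → ℝ} {F : (Fin (N + 1) → ℝ) → Fin N → ℝ} {i : Fin (N + 1)} {c : ℝ}
    {z : Fin N → ℝ} (hF : DifferentiableAt ℝ F (ins i c z)) :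
    pb w F (ins i c z) (fun j => Pi.single (i.succAbove j) 1) =
      w ((F ∘ ins i c) z) * jac (F ∘ ins i c) z := by
  rw [jac, (hF.hasFDerivAt.comp z (hasFDerivAt_ins i c z)).fderiv, det_eq_vol]
  simp only [ContinuousLinearMap.comp_apply, insL_single]
  rfl

/-- **Stokes on a box** -/
theorem box_stokes {w : (Fin N → ℝ) → ℝ} (hw : ContDiff ℝ 1 w) {a b : Fin (N + 1) → ℝ} (hab : a ≤ b)
    {O : Set (Fin (N + 1) → ℝ)} (hO : IsOpen O) {F : (Fin (N + 1) → ℝ) → Fin N → ℝ}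
    (hF : ContDiffOn ℝ 2 F O) {K : Set (Fin (N + 1) → ℝ)} (hK : IsCompact K) (hKO : K ⊆ O)
    (h0 : ∀ x ∈ Icc a b, x ∈ O → x ∉ K → w (F x) = 0) :
    ∑ i : Fin (N + 1), (-1 : ℝ) ^ (i : ℕ) *
      (bint w (ins i (b i) ⁻¹' O) (F ∘ ins i (b i)) (fun j => a (i.succAbove j))
          (fun j => b (i.succAbove j)) -
        bint w (ins i (a i) ⁻¹' O) (F ∘ ins i (a i)) (fun j => a (i.succAbove j))
          (fun j => b (i.succAbove j))) = 0 := by
  classical
  set m : Fin (N + 1) → (Fin (N + 1) → ℝ) → ℝ :=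
    fun i x => pb w F x (fun j => Pi.single (i.succAbove j) 1) with hm
  have hc : ∀ x ∈ O, ContDiffAt ℝ 2 F x := fun x hx => hF.contDiffAt (hO.mem_nhds hx)
  have hd : ∀ i : Fin (N + 1), ∀ x ∈ O, HasFDerivAt (O.indicator fun x => (-1 : ℝ) ^ (i : ℕ) * m i x)
      ((-1 : ℝ) ^ (i : ℕ) • fderiv ℝ (m i) x) x := fun i x hx =>
    (((differentiableAt_pb hw (hc x hx)).continuousAlternatingMap_apply_const _).hasFDerivAt.const_mul
      _).congr_of_eventuallyEq ((hO.eventually_mem hx).mono fun y hy => indicator_of_mem hy _)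
  have hz : ∀ i : Fin (N + 1), ∀ x, x ∉ O → ∀ᶠ y in 𝓝 x, y ∈ Icc a b →
      O.indicator (fun x => (-1 : ℝ) ^ (i : ℕ) * m i x) y = 0 := fun i x hx => by
    filter_upwards [hK.isClosed.isOpen_compl.mem_nhds fun h => hx (hKO h)] with y hy hy'
    by_cases hyO : y ∈ O
    · simp [hyO, hm, pb, h0 y hy' hyO hy]
    · exact indicator_of_notMem hyO _
  have hs : ∀ x, ∑ i : Fin (N + 1), (O.indicator fun x => (-1 : ℝ) ^ (i : ℕ) • fderiv ℝ (m i) x) x
      (Pi.single i 1) = 0 := fun x => by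
    by_cases hx : x ∈ O
    · have h := extDeriv_apply (differentiableAt_pb hw (hc x hx)) fun k => Pi.single k 1
      rw [extDeriv_pb hw (hc x hx)] at h
      simp only [indicator_of_mem hx]
      refine Eq.trans (Finset.sum_congr rfl fun i _ => ?_) h.symm
      rw [ContinuousLinearMap.smul_apply, smul_eq_mul, zsmul_eq_mul]
      push_cast
      rfl
    · simp [hx]
  have key := integral_divergence_of_hasFDerivAt_off_countable' a b hab
    (fun i => O.indicator fun x => (-1 : ℝ) ^ (i : ℕ) * m i x)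
    (fun i => O.indicator fun x => (-1 : ℝ) ^ (i : ℕ) • fderiv ℝ (m i) x) ∅ countable_empty
    (fun i x hx => by
      by_cases hxO : x ∈ O
      · exact (hd i x hxO).continuousAt.continuousWithinAt
      · refine (continuousWithinAt_const (b := (0 : ℝ))).congr_of_eventuallyEq ?_
          (indicator_of_notMem hxO _)
        filter_upwards [nhdsWithin_le_nhds (hz i x hxO), self_mem_nhdsWithin] with y h1 h2
        exact h1 h2)
    (fun x hx i => by
      by_cases hxO : x ∈ O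
      · rw [indicator_of_mem hxO]; exact hd i x hxO
      · rw [indicator_of_notMem hxO]
        refine (hasFDerivAt_const (0 : ℝ) x).congr_of_eventuallyEq ?_
        filter_upwards [hz i x hxO, pi_Icc_mem_nhds (fun k => (hx.1 k trivial).1)
          fun k => (hx.1 k trivial).2] with y h1 h2
        exact h1 h2)
    (by simp only [hs]; exact integrableOn_zero)
  simp only [hs, integral_zero] at key
  have hf : ∀ (i : Fin (N + 1)) (c : ℝ) (z : Fin N → ℝ),
      O.indicator (fun x => (-1 : ℝ) ^ (i : ℕ) * m i x) (Fin.insertNth i c z) =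
        (-1 : ℝ) ^ (i : ℕ) * dens w (ins i c ⁻¹' O) (F ∘ ins i c) z := fun i c z => by
    by_cases hz : ins i c z ∈ O
    · rw [dens, indicator_of_mem (show z ∈ ins i c ⁻¹' O from hz),
        ← pb_ins ((hc _ hz).differentiableAt two_ne_zero)]
      exact indicator_of_mem hz _
    · rw [dens, indicator_of_notMem (show z ∉ ins i c ⁻¹' O from hz), mul_zero]
      exact indicator_of_notMem hz _
  simp only [hf, integral_const_mul, ← mul_sub] at key
  exact key.symm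

/-- permuting the coordinates of the target -/
theorem jac_perm (F : (Fin N → ℝ) → Fin N → ℝ) (ϖ : Equiv.Perm (Fin N)) (x : Fin N → ℝ) :
    jac (fun z i => F z (ϖ i)) x = ((Equiv.Perm.sign ϖ : ℤ) : ℝ) * jac F x := by
  have h := (LinearEquiv.funCongrLeft ℝ ℝ ϖ).toContinuousLinearEquiv.comp_fderiv (f := F) (x := x)
  have e : (fun z i => F z (ϖ i)) = (LinearEquiv.funCongrLeft ℝ ℝ ϖ).toContinuousLinearEquiv ∘ F :=
    rfl
  rw [jac, jac, e, h, det_eq_vol, det_eq_vol, vol_apply, vol_apply]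
  exact Matrix.det_permute' ϖ (Matrix.of fun j => fderiv ℝ F x (Pi.single j 1))

theorem jac_eq_zero {F : (Fin N → ℝ) → Fin N → ℝ} {x v : Fin N → ℝ} (hv : v ≠ 0)
    (h : fderiv ℝ F x v = 0) : jac F x = 0 := by
  exact LinearMap.det_eq_zero_iff_ker_ne_bot.2 fun hk => hv (LinearMap.ker_eq_bot'.1 hk v h)

/-- a map which is locally independent of one coordinate has zero Jacobian -/
theorem jac_eq_zero_of_update {F : (Fin N → ℝ) → Fin N → ℝ} {x : Fin N → ℝ} (j : Fin N)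
    (h : ∀ᶠ c in 𝓝 (x j), F (Function.update x j c) = F x) : jac F x = 0 := by
  refine jac_eq_zero (v := Pi.single j 1) (by simp) ?_
  by_cases hF : DifferentiableAt ℝ F x
  · have h1 : HasFDerivAt F (fderiv ℝ F x) (Function.update x j (x j)) := by
      rw [Function.update_eq_self]; exact hF.hasFDerivAt
    exact (h1.comp_hasDerivAt (x j) (hasDerivAt_update x j (x j))).unique
      ((hasDerivAt_const (x j) (F x)).congr_of_eventuallyEq h)
  · rw [fderiv_zero_of_not_differentiableAt hF]; rfl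

theorem jac_ne_zero {F : (Fin N → ℝ) → Fin N → ℝ} {x : Fin N → ℝ}
    (h : ∀ v, fderiv ℝ F x v = 0 → v = 0) : jac F x ≠ 0 := by
  exact fun h0 => LinearMap.det_eq_zero_iff_ker_ne_bot.1 h0 (LinearMap.ker_eq_bot'.2 h)

theorem bint_congr {w : (Fin N → ℝ) → ℝ} {O : Set (Fin N → ℝ)} (hO : IsOpen O)
    {F F' : (Fin N → ℝ) → Fin N → ℝ} (h : EqOn F F' O) (a b : Fin N → ℝ) :
    bint w O F a b = bint w O F' a b := by
  unfold bint dens
  congr 1
  refine indicator_congr fun x hx => ?_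
  simp only [jac, h hx, (h.eventuallyEq_of_mem (hO.mem_nhds hx)).fderiv_eq]

theorem bint_eq_zero {w : (Fin N → ℝ) → ℝ} {O : Set (Fin N → ℝ)} {F : (Fin N → ℝ) → Fin N → ℝ}
    {a b : Fin N → ℝ} (h : ∀ x ∈ Icc a b, x ∈ O → w (F x) * jac F x = 0) : bint w O F a b = 0 := by
  refine setIntegral_eq_zero_of_forall_eq_zero fun x hx => ?_
  by_cases hxO : x ∈ O
  · exact (indicator_of_mem hxO _).trans (h x hx hxO)
  · exact indicator_of_notMem hxO _

/-- changing the domain -/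
theorem bint_dom {w : (Fin N → ℝ) → ℝ} {O O' : Set (Fin N → ℝ)} {F : (Fin N → ℝ) → Fin N → ℝ}
    {a b : Fin N → ℝ} (h : ∀ x ∈ Icc a b, x ∈ O → w (F x) ≠ 0 → x ∈ O')
    (h' : ∀ x ∈ Icc a b, x ∈ O' → w (F x) ≠ 0 → x ∈ O) : bint w O F a b = bint w O' F a b := by
  refine setIntegral_congr_fun measurableSet_Icc fun x hx => ?_
  by_cases hw : w (F x) = 0
  · simp [dens, indicator, hw]
  · by_cases h1 : x ∈ O
    · simp only [dens, indicator_of_mem h1, indicator_of_mem (h x hx h1 hw)]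
    · simp only [dens, indicator_of_notMem h1,
        indicator_of_notMem (fun h2 => h1 (h' x hx h2 hw) : x ∉ O')]

/-- non vanishing: the Jacobian has a sign -/
theorem bint_ne_zero {w : (Fin N → ℝ) → ℝ} (hw : Continuous w) (hw0 : ∀ t, 0 ≤ w t)
    {F : (Fin N → ℝ) → Fin N → ℝ} (hF : ContDiff ℝ 1 F) {a b : Fin N → ℝ} {U : Set (Fin N → ℝ)}
    (hU : IsOpen U) (hc : IsPreconnected U) (hj : ∀ x ∈ U, jac F x ≠ 0)
    (hout : ∀ x ∈ Icc a b, x ∉ closure U → jac F x = 0) {x₀ : Fin N → ℝ} (hx₀ : x₀ ∈ U)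
    (hin : ∀ i, a i < x₀ i ∧ x₀ i < b i) (hw1 : 0 < w (F x₀)) : bint w univ F a b ≠ 0 := by
  have cj : Continuous (jac F) :=
    ContinuousLinearMap.continuous_det.comp (hF.continuous_fderiv one_ne_zero)
  have cg : Continuous fun x => jac F x₀ * jac F x := continuous_const.mul cj
  have g0 : 0 < jac F x₀ * jac F x₀ := mul_self_pos.2 (hj x₀ hx₀)
  have h1 : ∀ x ∈ U, 0 ≤ jac F x₀ * jac F x := fun x hx => by
    by_contra hn
    obtain ⟨y, hy, h⟩ := hc.intermediate_value hx hx₀ cg.continuousOn ⟨(not_le.1 hn).le, g0.le⟩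
    exact mul_ne_zero (hj x₀ hx₀) (hj y hy) h
  have h2 : ∀ x ∈ Icc a b, 0 ≤ jac F x₀ * (w (F x) * jac F x) := fun x hx => by
    rw [mul_left_comm]
    refine mul_nonneg (hw0 _) ?_
    by_cases hx' : x ∈ closure U
    · exact closure_minimal h1 (isClosed_le continuous_const cg) hx'
    · rw [hout x hx hx', mul_zero]
  have cf : Continuous fun x => jac F x₀ * (w (F x) * jac F x) :=
    continuous_const.mul ((hw.comp hF.continuous).mul cj)
  have h3 : 0 < ∫ x in Icc a b, jac F x₀ * (w (F x) * jac F x) := by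
    rw [setIntegral_pos_iff_support_of_nonneg_ae
      ((ae_restrict_iff' measurableSet_Icc).2 (ae_of_all _ h2)) cf.integrableOn_Icc]
    refine Measure.measure_pos_of_mem_nhds _ (inter_mem (cf.isOpen_support.mem_nhds ?_)
      (pi_Icc_mem_nhds (fun i => (hin i).1) fun i => (hin i).2))
    rw [Function.mem_support, mul_left_comm]
    exact (mul_pos hw1 g0).ne'
  intro h
  rw [bint, dens, indicator_univ] at h
  rw [integral_const_mul, h, mul_zero] at h3
  exact lt_irrefl _ h3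

/-- the bump `w(t) = ∏ β(t_i)`, positive exactly on the open unit cube -/
def bmp (N : ℕ) (t : Fin N → ℝ) : ℝ := ∏ i, expNegInvGlue (1 - t i ^ 2)

theorem contDiff_bmp : ContDiff ℝ 1 (bmp N) := by
  exact contDiff_prod fun i _ => expNegInvGlue.contDiff.comp (by fun_prop)

theorem bmp_nonneg (t : Fin N → ℝ) : 0 ≤ bmp N t := by
  exact Finset.prod_nonneg fun i _ => expNegInvGlue.nonneg _

theorem bmp_perm (t : Fin N → ℝ) (ϖ : Equiv.Perm (Fin N)) : bmp N (fun i => t (ϖ i)) = bmp N t := by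
  exact Equiv.prod_comp ϖ fun i => expNegInvGlue (1 - t i ^ 2)

theorem bmp_pos_iff {t : Fin N → ℝ} : 0 < bmp N t ↔ ‖t‖ < 1 := by
  rw [pi_norm_lt_iff one_pos]
  refine ⟨fun h i => ?_, fun h => Finset.prod_pos fun i _ => expNegInvGlue.pos_of_pos ?_⟩
  · by_contra hn
    refine h.ne' (Finset.prod_eq_zero (Finset.mem_univ i) (expNegInvGlue.zero_of_nonpos ?_))
    rw [sub_nonpos, one_le_sq_iff_one_le_abs]
    exact not_lt.1 hn
  · rw [sub_pos, sq_lt_one_iff_abs_lt_one]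
    exact h i

theorem bmp_eq_zero {t : Fin N → ℝ} (h : 1 ≤ ‖t‖) : bmp N t = 0 := by
  exact le_antisymm (not_lt.1 fun h' => not_lt.2 h (bmp_pos_iff.1 h')) (bmp_nonneg t)

end Crest.Agent.N222.C
end
end

-- ▼ part N222/C/Cell
section

/-!
# Row 222, part C: integration over the cells of the parameter space, Stokes

The source is `Fin (r + q) → ℝ`: first the `r` fibre coordinates (through `eκ`), then a cube of
dimension `q`.  The cell `(g, v)` is parametrised by `ξ ↦ sec g v (flp g ξ)`, `ξ` in the box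
`[-L, L] × [0, L]^JJ`.

Proof of `cell_stokes`: apply `box_stokes` in every cell (`Fin (r + q + 1) = Fin (r + (q + 1))`; the
compact set is `{z ∈ box | flp g (fib z) ∈ trace of K}`, see `Gl.isCompact_trace`); the faces
`natAdd r j` give the stated terms (sign `(-1)^(r+j)`); the faces `m = ±L`, `y_I = L` vanish (outside
`K`); the faces `y_I = 0` of the cells `(g, v)` and `(g ∆ {I}, Φ I v)` have the same domain and the
same map (`flp_symmDiff`, `sec_change`) and opposite signs, or an empty domain.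
-/

set_option autoImplicit false

open Set Filter Topology
open scoped symmDiff

noncomputable section

namespace Crest.Agent.N222.C

variable {k r q : ℕ}

/-- fibre coordinates -/
def fib (eκ : Fin r ≃ KK k) (z : Fin (r + q) → ℝ) : KK k → ℝ :=
  fun c => z (Fin.castAdd q (eκ.symm c))

/-- cube coordinates -/
def cub (r : ℕ) (z : Fin (r + q) → ℝ) : Fin q → ℝ := fun j => z (Fin.natAdd r j)

/-- lower corner -/
def lo (eκ : Fin r ≃ KK k) (L : ℝ) (q : ℕ) : Fin (r + q) → ℝ :=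
  Fin.append (fun i => (eκ i).elim (-L) fun _ => 0) fun _ => 0

/-- upper corner -/
def hi (r : ℕ) (L : ℝ) (q : ℕ) : Fin (r + q) → ℝ := Fin.append (fun _ => L) fun _ => 1

theorem mem_box {eκ : Fin r ≃ KK k} {L : ℝ} {z : Fin (r + q) → ℝ} :
    z ∈ Icc (lo eκ L q) (hi r L q) ↔ (-L ≤ fib eκ z none ∧ fib eκ z none ≤ L) ∧
      (∀ K, 0 ≤ fib eκ z (some K) ∧ fib eκ z (some K) ≤ L) ∧
      ∀ j, 0 ≤ cub r z j ∧ cub r z j ≤ 1 := by
  simp only [mem_Icc, Pi.le_def, Fin.forall_fin_add, lo, hi, Fin.append_left, Fin.append_right,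
    fib, cub]
  constructor
  · rintro ⟨⟨h1, h2⟩, h3, h4⟩
    refine ⟨⟨?_, h3 _⟩, fun K => ⟨?_, h3 _⟩, fun j => ⟨h2 j, h4 j⟩⟩
    · simpa using h1 (eκ.symm none)
    · simpa using h1 (eκ.symm (some K))
  · rintro ⟨h1, h2, h3⟩
    refine ⟨⟨fun i => ?_, fun j => (h3 j).1⟩, fun i => ?_, fun j => (h3 j).2⟩
    · obtain ⟨c, rfl⟩ := eκ.symm.surjective i
      cases c with
      | none => simpa using h1.1
      | some K => simpa using (h2 K).1
    · obtain ⟨c, rfl⟩ := eκ.symm.surjective i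
      cases c with
      | none => exact h1.2
      | some K => exact (h2 K).2

theorem contDiff_fib (eκ : Fin r ≃ KK k) :
    ContDiff ℝ (⊤ : ℕ∞) (fib eκ : (Fin (r + q) → ℝ) → KK k → ℝ) := by
  exact contDiff_pi.2 fun c => contDiff_apply ℝ ℝ _

theorem contDiff_cub : ContDiff ℝ (⊤ : ℕ∞) (cub r : (Fin (r + q) → ℝ) → Fin q → ℝ) := by
  exact contDiff_pi.2 fun c => contDiff_apply ℝ ℝ _

theorem cell_succAbove_castAdd (j : Fin (q + 1)) (i : Fin r) :
    Fin.succAbove (n := r + q) (Fin.natAdd r j) (Fin.castAdd q i) = Fin.castAdd (q + 1) i := by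
  rw [Fin.succAbove_of_castSucc_lt]
  · rfl
  · rw [Fin.lt_def]
    have := i.2
    simp only [Fin.val_castSucc, Fin.val_castAdd, Fin.val_natAdd]
    omega

theorem cell_succAbove_natAdd (j : Fin (q + 1)) (i : Fin q) :
    Fin.succAbove (n := r + q) (Fin.natAdd r j) (Fin.natAdd r i)
      = Fin.natAdd r (j.succAbove i) := by
  by_cases h : i.castSucc < j
  · rw [Fin.succAbove_of_castSucc_lt j i h, Fin.succAbove_of_castSucc_lt]
    · rfl
    · rw [Fin.lt_def] at h ⊢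
      simp only [Fin.val_castSucc, Fin.val_natAdd] at h ⊢
      omega
  · rw [Fin.succAbove_of_le_castSucc j i (not_lt.1 h), Fin.succAbove_of_le_castSucc]
    · rfl
    · rw [not_lt, Fin.le_def] at h
      rw [Fin.le_def]
      simp only [Fin.val_castSucc, Fin.val_natAdd] at h ⊢
      omega

theorem fib_ins (eκ : Fin r ≃ KK k) (j : Fin (q + 1)) (c : ℝ) (z : Fin (r + q) → ℝ) :
    fib (q := q + 1) eκ (ins (N := r + q) (Fin.natAdd r j) c z) = fib eκ z := by
  funext K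
  simp only [fib, ins, ← cell_succAbove_castAdd j, Fin.insertNth_apply_succAbove]

theorem cub_ins (j : Fin (q + 1)) (c : ℝ) (z : Fin (r + q) → ℝ) :
    cub (q := q + 1) r (ins (N := r + q) (Fin.natAdd r j) c z) = ins j c (cub r z) := by
  funext i
  rcases Fin.eq_self_or_eq_succAbove j i with rfl | ⟨i, rfl⟩
  · simp only [cub, ins, Fin.insertNth_apply_same]
  · simp only [cub, ins, ← cell_succAbove_natAdd j, Fin.insertNth_apply_succAbove]

theorem lo_succAbove (eκ : Fin r ≃ KK k) (L : ℝ) (j : Fin (q + 1)) :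
    (fun i => lo eκ L (q + 1) (Fin.succAbove (n := r + q) (Fin.natAdd r j) i)) = lo eκ L q := by
  funext i
  refine Fin.addCases (fun i => ?_) (fun i => ?_) i
  · simp only [cell_succAbove_castAdd, lo, Fin.append_left]
  · simp only [cell_succAbove_natAdd, lo, Fin.append_right]

theorem hi_succAbove (L : ℝ) (j : Fin (q + 1)) :
    (fun i => hi r L (q + 1) (Fin.succAbove (n := r + q) (Fin.natAdd r j) i)) = hi r L q := by
  funext i
  refine Fin.addCases (fun i => ?_) (fun i => ?_) i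
  · simp only [cell_succAbove_castAdd, hi, Fin.append_left]
  · simp only [cell_succAbove_natAdd, hi, Fin.append_right]

theorem lo_le_hi (eκ : Fin r ≃ KK k) {L : ℝ} (hL : 0 ≤ L) : lo eκ L q ≤ hi r L q := by
  intro i
  refine Fin.addCases (fun i => ?_) (fun i => ?_) i
  · simp only [lo, hi, Fin.append_left]
    cases eκ i with
    | none => simp only [Option.elim]; linarith
    | some K => exact hL
  · simp [lo, hi, Fin.append_right]

theorem cub_mem {eκ : Fin r ≃ KK k} {L : ℝ} {z : Fin (r + q) → ℝ}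
    (hz : z ∈ Icc (lo eκ L q) (hi r L q)) : cub r z ∈ Icc (0 : Fin q → ℝ) 1 :=
  ⟨fun j => ((mem_box.1 hz).2.2 j).1, fun j => ((mem_box.1 hz).2.2 j).2⟩

theorem mem_Ug_symmDiff {g : Finset (JJ k)} {I : JJ k} {η : KK k → ℝ} (h : η (some I) = 0)
    (hη : η ∈ Ug g) : η ∈ Ug (g ∆ {I}) := by
  refine ⟨hη.1, fun K => ?_⟩
  by_cases hK : K = I
  · subst hK; simp [h]
  · simpa [Finset.mem_symmDiff, hK] using hη.2 K

namespace Gl

variable {Γ V : Type} [Group Γ] [MulAction Γ V] (G : Gl Γ V k) (eκ : Fin r ≃ KK k)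

/-- the point of the parameter space -/
def pt (g : Finset (JJ k)) (v : V) (z : Fin (r + q) → ℝ) : G.YY := G.sec g v (flp g (fib eκ z))

/-- the domain in a cell -/
def Oc (D : Set G.YY) (g : Finset (JJ k)) (v : V) : Set (Fin (r + q) → ℝ) :=
  {z | flp g (fib eκ z) ∈ Ug g ∧ G.pt eκ g v z ∈ D}

/-- the map in a cell -/
def Fc {E : Type} (Φ : (Fin q → ℝ) → G.YY → E) (g : Finset (JJ k)) (v : V)
    (z : Fin (r + q) → ℝ) : E := Φ (cub r z) (G.pt eκ g v z)

/-- the integral over all cells -/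
def CI (s : V → ℝ) (w : (Fin (r + q) → ℝ) → ℝ) (L : ℝ) (D : Set G.YY)
    (Φ : (Fin q → ℝ) → G.YY → Fin (r + q) → ℝ) : ℝ :=
  ∑ g : Finset (JJ k), ∑ᶠ v : V,
    s v * bint w (G.Oc eκ D g v) (G.Fc eκ Φ g v) (lo eκ L q) (hi r L q)

/-- admissible domains: open, meeting finitely many sheets, signs change on the walls -/
structure Dom (s : V → ℝ) (D : Set G.YY) : Prop where
  op : IsOpen D
  fin : {v | ∃ g η, η ∈ Ug g ∧ G.sec g v η ∈ D}.Finite
  wall : ∀ g v η I, η ∈ Ug g → η (some I) = 0 → G.sec g v η ∈ D → s (G.Φ I v) = -s v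

/-- `Φ` is `C²` on `ℝ^q × D` -/
def Sm2 {E : Type} [NormedAddCommGroup E] [NormedSpace ℝ E] (D : Set G.YY)
    (Φ : (Fin q → ℝ) → G.YY → E) : Prop :=
  ∀ g v, ContDiffOn ℝ 2 (fun z : (Fin q → ℝ) × (KK k → ℝ) => Φ z.1 (G.sec g v z.2))
    {z | z.2 ∈ Ug g ∧ G.sec g v z.2 ∈ D}

variable {G eκ}

theorem isOpen_Oc {D : Set G.YY} (hD : IsOpen D) (g : Finset (JJ k)) (v : V) :
    IsOpen (G.Oc (q := q) eκ D g v) := by
  have h1 : Continuous fun z : Fin (r + q) → ℝ => flp g (fib eκ z) :=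
    (contDiff_flp g).continuous.comp (contDiff_fib eκ).continuous
  exact ((G.continuousOn_sec g v).isOpen_inter_preimage (isOpen_Ug g) hD).preimage h1

/-- the two cells on the sides of a wall -/
theorem wall_flip (g : Finset (JJ k)) (I : JJ k) (v : V) {z : Fin (r + q) → ℝ}
    (hz : fib eκ z (some I) = 0) (h : flp g (fib eκ z) ∈ Ug g) :
    flp (g ∆ {I}) (fib eκ z) ∈ Ug (g ∆ {I}) ∧ G.pt eκ (g ∆ {I}) (G.Φ I v) z = G.pt eκ g v z := by
  have h0 : flp g (fib eκ z) (some I) = 0 := by simp [flp, hz]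
  have h1 := mem_Ug_symmDiff h0 h
  have h2 := G.sec_change v h h1
  rw [symmDiff_symmDiff_cancel_left, G.ΦS_singleton] at h2
  rw [pt, pt, flp_symmDiff g I hz]
  exact ⟨h1, h2⟩

theorem wall_zero {N : ℕ} {s : V → ℝ} (w : (Fin N → ℝ) → ℝ) {D : Set G.YY} (hD : G.Dom s D)
    (Φ : (Fin q → ℝ) → G.YY → Fin N → ℝ) {ψ : (Fin N → ℝ) → Fin (r + q) → ℝ}
    (hψ : Continuous ψ) {I : JJ k} (h0 : ∀ z, fib eκ (ψ z) (some I) = 0) (a b : Fin N → ℝ) :
    ∑ g : Finset (JJ k), ∑ᶠ v : V,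
      s v * bint w (ψ ⁻¹' G.Oc eκ D g v) (G.Fc eκ Φ g v ∘ ψ) a b = 0 := by
  have hI : ∀ v, G.Φ I (G.Φ I v) = v := fun v => by
    rw [← Equiv.Perm.mul_apply, G.sq, Equiv.Perm.one_apply]
  have key : ∀ g v, s (G.Φ I v) * bint w (ψ ⁻¹' G.Oc eκ D (g ∆ {I}) (G.Φ I v))
      (G.Fc eκ Φ (g ∆ {I}) (G.Φ I v) ∘ ψ) a b
      = -(s v * bint w (ψ ⁻¹' G.Oc eκ D g v) (G.Fc eκ Φ g v ∘ ψ) a b) := by
    intro g v
    have e1 : ψ ⁻¹' G.Oc eκ D (g ∆ {I}) (G.Φ I v) = ψ ⁻¹' G.Oc eκ D g v := by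
      ext z
      constructor
      · rintro ⟨h1, h2⟩
        have := wall_flip (G := G) (g ∆ {I}) I (G.Φ I v) (h0 z) h1
        rw [symmDiff_symmDiff_cancel_right, hI] at this
        exact ⟨this.1, this.2 ▸ h2⟩
      · rintro ⟨h1, h2⟩
        have := wall_flip (G := G) g I v (h0 z) h1
        exact ⟨this.1, this.2 ▸ h2⟩
    have e2 : EqOn (G.Fc eκ Φ (g ∆ {I}) (G.Φ I v) ∘ ψ) (G.Fc eκ Φ g v ∘ ψ)
        (ψ ⁻¹' G.Oc eκ D g v) := fun z hz => by
      simp only [Function.comp_apply, Fc, (wall_flip (G := G) g I v (h0 z) hz.1).2]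
    rw [e1, bint_congr ((isOpen_Oc hD.op g v).preimage hψ) e2]
    rcases (ψ ⁻¹' G.Oc eκ D g v).eq_empty_or_nonempty with he | ⟨z, hz⟩
    · rw [bint_eq_zero fun x _ hx => by rw [he] at hx; exact hx.elim]
      simp
    · rw [hD.wall g v _ I hz.1 (by simp [flp, h0 z]) hz.2, neg_mul]
  have hinv : Function.Involutive fun g : Finset (JJ k) => g ∆ {I} := fun g =>
    symmDiff_symmDiff_cancel_right _ _
  have h1 := Equiv.sum_comp hinv.toPerm fun g => ∑ᶠ v : V,
    s v * bint w (ψ ⁻¹' G.Oc eκ D g v) (G.Fc eκ Φ g v ∘ ψ) a b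
  have h2 : ∀ g : Finset (JJ k), ∑ᶠ v : V, s v * bint w (ψ ⁻¹' G.Oc eκ D (g ∆ {I}) v)
      (G.Fc eκ Φ (g ∆ {I}) v ∘ ψ) a b = -∑ᶠ v : V,
      s v * bint w (ψ ⁻¹' G.Oc eκ D g v) (G.Fc eκ Φ g v ∘ ψ) a b := fun g => by
    rw [← finsum_comp_equiv (G.Φ I), ← finsum_neg_distrib]
    exact finsum_congr (key g)
  simp only [Function.Involutive.coe_toPerm, h2, Finset.sum_neg_distrib] at h1
  linarith

/-- **Stokes** -/
theorem cell_stokes {s : V → ℝ} {w : (Fin (r + q) → ℝ) → ℝ} (hw : ContDiff ℝ 1 w) {L : ℝ}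
    (hL : 0 ≤ L) {D : Set G.YY} (hD : G.Dom s D)
    {Φ : (Fin (q + 1) → ℝ) → G.YY → Fin (r + q) → ℝ} (hΦ : G.Sm2 D Φ)
    {K : Set G.YY} (hK : IsCompact K) (hKD : K ⊆ D) (hKL : ∀ p ∈ K, ‖p.1.2‖ < L)
    (h0 : ∀ c ∈ Icc (0 : Fin (q + 1) → ℝ) 1, ∀ p ∈ D, p ∉ K → w (Φ c p) = 0) :
    ∑ j : Fin (q + 1), (-1 : ℝ) ^ (j : ℕ) *
      (G.CI eκ s w L D (fun z => Φ (ins j 1 z)) - G.CI eκ s w L D (fun z => Φ (ins j 0 z))) = 0 := by
  classical
  set a : Fin (r + q + 1) → ℝ := lo eκ L (q + 1) with ha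
  set b : Fin (r + q + 1) → ℝ := hi r L (q + 1) with hb
  have hab : a ≤ b := lo_le_hi eκ hL
  have hfl : ∀ g, ContDiff ℝ (⊤ : ℕ∞) fun z : Fin (r + (q + 1)) → ℝ => flp g (fib eκ z) :=
    fun g => (contDiff_flp g).comp (contDiff_fib eκ)
  -- the face integrals
  set B : Fin (r + q + 1) → ℝ → Finset (JJ k) → V → ℝ := fun i c g v =>
    bint w (ins i c ⁻¹' G.Oc (q := q + 1) eκ D g v) (G.Fc eκ Φ g v ∘ ins i c)
      (fun j => a (i.succAbove j)) fun j => b (i.succAbove j) with hB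
  have st : ∀ g v, ∑ i : Fin (r + q + 1),
      (-1 : ℝ) ^ (i : ℕ) * (B i (b i) g v - B i (a i) g v) = 0 := by
    intro g v
    refine box_stokes hw hab (isOpen_Oc (q := q + 1) hD.op g v) ?_
      (K := Icc a b ∩ (fun z => flp g (fib (q := q + 1) eκ z)) ⁻¹'
        {η | η ∈ UU k ∧ η ∈ Cg g ∧ G.sec g v η ∈ K})
      (isCompact_Icc.inter_right ((G.isCompact_trace hK g v).isClosed.preimage
        (hfl g).continuous)) (fun z hz => ⟨mem_Ug_of_Cg hz.2.1 hz.2.2.1, hKD hz.2.2.2⟩) ?_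
    · have h2 : (2 : WithTop ℕ∞) ≤ ((⊤ : ℕ∞) : WithTop ℕ∞) :=
        (WithTop.coe_le_coe.2 le_top : ((2 : ℕ∞) : WithTop ℕ∞) ≤ ((⊤ : ℕ∞) : WithTop ℕ∞))
      exact (hΦ g v).comp ((contDiff_cub.prodMk (hfl g)).of_le h2).contDiffOn fun z hz => hz
    · intro z hz hzO hzK
      refine h0 _ (cub_mem hz) _ hzO.2 fun hp => hzK ⟨hz, hzO.1.1, ?_, hp⟩
      exact flp_mem_Cg g fun K => ((mem_box.1 hz).2.1 K).1
  have fs : ∀ i c g, ∑ᶠ v, s v * B i c g v = ∑ v ∈ hD.fin.toFinset, s v * B i c g v := by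
    intro i c g
    refine finsum_eq_sum_of_support_subset _ fun v hv => ?_
    by_contra hn
    refine hv ?_
    beta_reduce
    rw [show B i c g v = 0 from bint_eq_zero fun x _ hx => (hn ?_).elim, mul_zero]
    simp only [Finite.coe_toFinset]
    exact ⟨g, _, hx.1, hx.2⟩
  have tot : ∑ i : Fin (r + (q + 1)), (-1 : ℝ) ^ (i : ℕ) *
      (∑ g, ∑ᶠ v, s v * B i (b i) g v - ∑ g, ∑ᶠ v, s v * B i (a i) g v) = 0 := by
    simp only [fs, ← Finset.sum_sub_distrib, ← mul_sub, Finset.mul_sum]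
    rw [Finset.sum_comm]
    refine Finset.sum_eq_zero fun g _ => ?_
    rw [Finset.sum_comm]
    refine Finset.sum_eq_zero fun v _ => ?_
    rw [← mul_zero (s v), ← st g v, Finset.mul_sum]
    exact Finset.sum_congr rfl fun i _ => mul_left_comm _ _ _
  have far : ∀ (i : Fin r) (c : ℝ), c ∈ Icc (a (Fin.castAdd (q + 1) i)) (b (Fin.castAdd (q + 1) i)) →
      |c| = L → ∑ g, ∑ᶠ v, s v * B (Fin.castAdd (q + 1) i) c g v = 0 := by
    intro i c hc hcL
    refine Finset.sum_eq_zero fun g _ => finsum_eq_zero_of_forall_eq_zero fun v => ?_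
    rw [show B (Fin.castAdd (q + 1) i) c g v = 0 from bint_eq_zero fun x hx hxO => ?_, mul_zero]
    have hin : ins (N := r + q) (Fin.castAdd (q + 1) i) c x ∈ Icc a b :=
      Fin.insertNth_mem_Icc.2 ⟨hc, hx⟩
    refine mul_eq_zero_of_left (h0 _ (cub_mem hin) _ hxO.2 fun hp => ?_) _
    have h1 := hKL _ hp
    rw [pt, G.sec_val g v hxO.1.1, norm_flp] at h1
    have h2 := (norm_le_pi_norm _ (eκ i)).trans_lt h1
    simp only [fib, Equiv.symm_apply_apply, ins, Fin.insertNth_apply_same, Real.norm_eq_abs,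
      hcL, lt_self_iff_false] at h2
  have side : ∀ i : Fin r, ∑ g, ∑ᶠ v, s v * B (Fin.castAdd (q + 1) i) (b (Fin.castAdd (q + 1) i)) g v
      - ∑ g, ∑ᶠ v, s v * B (Fin.castAdd (q + 1) i) (a (Fin.castAdd (q + 1) i)) g v = 0 := by
    intro i
    rw [far i _ (right_mem_Icc.2 (hab _)) (by simp [hb, hi, abs_of_nonneg hL]), zero_sub,
      neg_eq_zero]
    rcases hi' : eκ i with _ | I
    · exact far i _ (left_mem_Icc.2 (hab _)) (by simp [ha, lo, hi', abs_of_nonneg hL])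
    · refine wall_zero w hD Φ (I := I)
        (continuous_iff_continuousAt.2 fun z => (hasFDerivAt_ins _ _ z).continuousAt)
        (fun z => ?_) _ _
      simp only [fib, ← hi', Equiv.symm_apply_apply, ins, Fin.insertNth_apply_same]
      simp [ha, lo, hi']
  have mid : ∀ (j : Fin (q + 1)) (c : ℝ), ∑ g, ∑ᶠ v, s v * B (Fin.natAdd r j) c g v
      = G.CI eκ s w L D fun z => Φ (ins j c z) := by
    intro j c
    refine Finset.sum_congr rfl fun g _ => finsum_congr fun v => ?_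
    have e1 : ins (N := r + q) (Fin.natAdd r j) c ⁻¹' G.Oc (q := q + 1) eκ D g v
        = G.Oc eκ D g v := by
      ext z
      change _ ∧ _ ↔ _ ∧ _
      simp only [pt, fib_ins]
    have e2 : G.Fc eκ Φ g v ∘ ins (N := r + q) (Fin.natAdd r j) c
        = G.Fc eκ (fun z => Φ (ins j c z)) g v := by
      funext z
      simp only [Function.comp_apply, Fc, pt, fib_ins, cub_ins]
    simp only [hB, e1, e2, ha, hb, lo_succAbove, hi_succAbove]
  rw [Fin.sum_univ_add] at tot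
  simp only [side, mul_zero, Finset.sum_const_zero, zero_add, mid, Fin.val_natAdd, pow_add,
    mul_assoc, ← Finset.mul_sum] at tot
  simp only [ha, hb, lo, hi, Fin.append_right] at tot
  exact (mul_eq_zero.1 tot).resolve_left (pow_ne_zero _ (by norm_num))


theorem CI_dom (s : V → ℝ) (w : (Fin (r + q) → ℝ) → ℝ) (L : ℝ) {D D' : Set G.YY} (hD : D ⊆ D')
    {Φ : (Fin q → ℝ) → G.YY → Fin (r + q) → ℝ}
    (h : ∀ c ∈ Icc (0 : Fin q → ℝ) 1, ∀ p ∈ D', w (Φ c p) ≠ 0 → p ∈ D) :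
    G.CI eκ s w L D Φ = G.CI eκ s w L D' Φ := by
  refine Finset.sum_congr rfl fun g _ => finsum_congr fun v => ?_
  exact congrArg _ (bint_dom (fun z _ hz _ => ⟨hz.1, hD hz.2⟩)
    fun z hz hz' hw => ⟨hz'.1, h _ (cub_mem hz) _ hz'.2 hw⟩)

theorem CI_eq_zero (s : V → ℝ) {w : (Fin (r + q) → ℝ) → ℝ} (L : ℝ) {D : Set G.YY}
    {Φ : (Fin q → ℝ) → G.YY → Fin (r + q) → ℝ}
    (h : ∀ c ∈ Icc (0 : Fin q → ℝ) 1, ∀ p ∈ D, w (Φ c p) = 0) : G.CI eκ s w L D Φ = 0 := by
  refine Finset.sum_eq_zero fun g _ => finsum_eq_zero_of_forall_eq_zero fun v => ?_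
  exact mul_eq_zero_of_right _ (bint_eq_zero fun z hz hz' =>
    mul_eq_zero_of_left (h _ (cub_mem hz) _ hz'.2) _)

/-- degenerate families -/
theorem CI_eq_zero_of_update (s : V → ℝ) (w : (Fin (r + q) → ℝ) → ℝ) (L : ℝ) (D : Set G.YY)
    {Φ : (Fin q → ℝ) → G.YY → Fin (r + q) → ℝ} (j : Fin q)
    (h : ∀ c t p, Φ (Function.update c j t) p = Φ c p) : G.CI eκ s w L D Φ = 0 := by
  refine Finset.sum_eq_zero fun g _ => finsum_eq_zero_of_forall_eq_zero fun v => ?_
  rw [bint_eq_zero fun z _ _ => mul_eq_zero_of_right _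
    (jac_eq_zero_of_update (Fin.natAdd r j) (Eventually.of_forall fun c => ?_)), mul_zero]
  have e1 : fib eκ (Function.update z (Fin.natAdd r j) c) = fib eκ z := by
    funext K
    refine Function.update_of_ne (fun e => ?_) _ _
    have h1 := congrArg Fin.val e
    have h2 := (eκ.symm K).2
    simp only [Fin.val_castAdd, Fin.val_natAdd] at h1
    omega
  have e2 : cub r (Function.update z (Fin.natAdd r j) c) = Function.update (cub r z) j c :=
    Function.update_comp_eq_of_injective z (Fin.natAdd_injective _ _) j c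
  simp only [Fc, pt, e1, e2, h]

/-- equivariance -/
theorem CI_smul {s : V → ℝ} {γ : Γ} {ε : ℝ} (hs : ∀ v, s (γ • v) = ε * s v)
    (w : (Fin (r + q) → ℝ) → ℝ) (L : ℝ) {D D' : Set G.YY} (hD : IsOpen D)
    (h : ∀ p, γ • p ∈ D' ↔ p ∈ D) {Φ Φ' : (Fin q → ℝ) → G.YY → Fin (r + q) → ℝ}
    (hΦ : ∀ c, ∀ p ∈ D, Φ' c (γ • p) = Φ c p) :
    G.CI eκ s w L D' Φ' = ε * G.CI eκ s w L D Φ := by
  rw [CI, CI, Finset.mul_sum]
  refine Finset.sum_congr rfl fun g _ => ?_
  rw [mul_finsum, ← finsum_comp_equiv (MulAction.toPerm γ)]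
  refine finsum_congr fun v => ?_
  have e1 : G.Oc (q := q) eκ D' g (γ • v) = G.Oc eκ D g v := by
    ext z
    simp only [Oc, pt, mem_ofPred_eq, G.sec_smul, h]
  have e2 : EqOn (G.Fc eκ Φ' g (γ • v)) (G.Fc eκ Φ g v) (G.Oc eκ D g v) := fun z hz => by
    simp only [Fc, pt, G.sec_smul]
    exact hΦ _ _ hz.2
  rw [MulAction.toPerm_apply, hs, e1, bint_congr (isOpen_Oc hD g v) e2, mul_assoc]

end Gl

end Crest.Agent.N222.C
end
end

-- ▼ part N222/C/Wt
section

/-!
# Row 222, part C: the parametrisation of the simplex by the cube (real polynomial version)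
-/

set_option autoImplicit false

open Set Filter Topology

noncomputable section

namespace Crest.Agent.N222.C

/-- barycentric weights `1 - s₀, s₀ (1 - s₁), …, s₀ ⋯ s_{p-1}` -/
def wt : ∀ {p : ℕ}, (Fin p → ℝ) → Fin (p + 1) → ℝ
  | 0, _ => fun _ => 1
  | _ + 1, s => Fin.cons (1 - s 0) (fun i => s 0 * wt (fun j => s j.succ) i)

theorem wt_base (s : Fin 0 → ℝ) (i : Fin 1) : wt s i = 1 := rfl

theorem wt_zero {p : ℕ} (s : Fin (p + 1) → ℝ) : wt s 0 = 1 - s 0 := rfl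

theorem wt_succ {p : ℕ} (s : Fin (p + 1) → ℝ) (i : Fin (p + 1)) :
    wt s i.succ = s 0 * wt (fun j => s j.succ) i := rfl

theorem wt_cons {p : ℕ} (a : ℝ) (z : Fin p → ℝ) :
    wt (Fin.cons a z : Fin (p + 1) → ℝ) =
      (Fin.cons (1 - a) (fun i => a * wt z i) : Fin (p + 2) → ℝ) := rfl

theorem insertNth_zero_mul {p : ℕ} (i : Fin (p + 1)) (a : ℝ) (b : Fin p → ℝ) :
    (Fin.insertNth i (0 : ℝ) (fun l => a * b l) : Fin (p + 1) → ℝ) =
      fun l => a * (Fin.insertNth i (0 : ℝ) b : Fin (p + 1) → ℝ) l := by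
  funext l
  cases l using Fin.succAboveCases i with
  | x => simp
  | p l => simp

theorem wt_sum {p : ℕ} (s : Fin p → ℝ) : ∑ i, wt s i = 1 := by
  induction p with
  | zero => simp [wt_base]
  | succ k ih =>
    rw [Fin.sum_univ_succ, wt_zero]
    simp only [wt_succ]
    rw [← Finset.mul_sum, ih]
    ring

theorem wt_nonneg {p : ℕ} {s : Fin p → ℝ} (h0 : ∀ j, 0 ≤ s j) (h1 : ∀ j, s j ≤ 1) (i : Fin (p + 1)) :
    0 ≤ wt s i := by
  induction p with
  | zero => exact zero_le_one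
  | succ k ih =>
    refine Fin.cases ?_ (fun j => ?_) i
    · rw [wt_zero]; linarith [h1 0]
    · rw [wt_succ]; exact mul_nonneg (h0 0) (ih (fun j => h0 _) (fun j => h1 _) _)

theorem contDiff_wt {p : ℕ} (i : Fin (p + 1)) : ContDiff ℝ (⊤ : ℕ∞) (fun s : Fin p → ℝ => wt s i) := by
  induction p with
  | zero => exact contDiff_const
  | succ k ih =>
    refine Fin.cases ?_ (fun j => ?_) i
    · simp only [wt_zero]; fun_prop
    · simp only [wt_succ]
      have ht : ContDiff ℝ (⊤ : ℕ∞) (fun (s : Fin (k + 1) → ℝ) (l : Fin k) => s l.succ) := by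
        fun_prop
      exact ContDiff.mul (by fun_prop) ((ih j).comp ht)

/-- the face `s_j = 1` is the face opposite to the vertex `j` -/
theorem wt_ins_one {p : ℕ} (j : Fin (p + 1)) (z : Fin p → ℝ) :
    wt (Fin.insertNth j (1 : ℝ) z : Fin (p + 1) → ℝ) =
      (Fin.insertNth j.castSucc (0 : ℝ) (wt z) : Fin (p + 2) → ℝ) := by
  induction p with
  | zero =>
    have hj : j = 0 := Fin.ext (by omega)
    subst hj
    rw [Fin.castSucc_zero, Fin.insertNth_zero', Fin.insertNth_zero', wt_cons]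
    simp
  | succ k ih =>
    refine Fin.cases ?_ (fun j' => ?_) j
    · rw [Fin.castSucc_zero, Fin.insertNth_zero', Fin.insertNth_zero', wt_cons]
      simp
    · obtain ⟨a, t, rfl⟩ : ∃ (a : ℝ) (t : Fin k → ℝ), z = Fin.cons a t :=
        ⟨z 0, Fin.tail z, (Fin.cons_self_tail z).symm⟩
      rw [Fin.castSucc_succ, Fin.insertNth_succ_cons, wt_cons, wt_cons, Fin.insertNth_succ_cons,
        ih, insertNth_zero_mul]

/-- the face `s_last = 0` is the face opposite to the last vertex -/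
theorem wt_ins_zero_last {p : ℕ} (z : Fin p → ℝ) :
    wt (Fin.insertNth (Fin.last p) (0 : ℝ) z : Fin (p + 1) → ℝ) =
      (Fin.insertNth (Fin.last (p + 1)) (0 : ℝ) (wt z) : Fin (p + 2) → ℝ) := by
  induction p with
  | zero =>
    funext l
    cases l using Fin.succAboveCases (Fin.last 1) with
    | x =>
      rw [Fin.insertNth_apply_same, ← Fin.succ_last, wt_succ]
      have : (Fin.insertNth (Fin.last 0) (0 : ℝ) z : Fin 1 → ℝ) 0 = 0 :=
        Fin.insertNth_apply_same (α := fun _ => ℝ) (Fin.last 0) 0 z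
      rw [this, zero_mul]
    | p l =>
      have hl : l = 0 := Fin.ext (by omega)
      subst hl
      rw [Fin.insertNth_apply_succAbove, Fin.succAbove_last, Fin.castSucc_zero, wt_zero, wt_base]
      have : (Fin.insertNth (Fin.last 0) (0 : ℝ) z : Fin 1 → ℝ) 0 = 0 :=
        Fin.insertNth_apply_same (α := fun _ => ℝ) (Fin.last 0) 0 z
      rw [this, sub_zero]
  | succ k ih =>
    obtain ⟨a, t, rfl⟩ : ∃ (a : ℝ) (t : Fin k → ℝ), z = Fin.cons a t :=
      ⟨z 0, Fin.tail z, (Fin.cons_self_tail z).symm⟩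
    rw [← Fin.succ_last (k + 1), ← Fin.succ_last k, Fin.insertNth_succ_cons, wt_cons, wt_cons,
      Fin.insertNth_succ_cons, ih, Fin.succ_last k, insertNth_zero_mul]

/-- the other faces `s_j = 0` are degenerate: they do not depend on the coordinate `j` of `z` -/
theorem wt_ins_zero_update {p : ℕ} (j : Fin p) (z : Fin p → ℝ) (c : ℝ) :
    wt (Fin.insertNth j.castSucc (0 : ℝ) (Function.update z j c) : Fin (p + 1) → ℝ) =
      wt (Fin.insertNth j.castSucc (0 : ℝ) z : Fin (p + 1) → ℝ) := by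
  induction p with
  | zero => exact j.elim0
  | succ k ih =>
    refine Fin.cases ?_ (fun j' => ?_) j
    · rw [Fin.castSucc_zero, Fin.insertNth_zero', Fin.insertNth_zero', wt_cons, wt_cons]
      simp
    · obtain ⟨a, t, rfl⟩ : ∃ (a : ℝ) (t : Fin k → ℝ), z = Fin.cons a t :=
        ⟨z 0, Fin.tail z, (Fin.cons_self_tail z).symm⟩
      rw [← Fin.cons_update (α := fun _ => ℝ), Fin.castSucc_succ, Fin.insertNth_succ_cons,
        Fin.insertNth_succ_cons, wt_cons, wt_cons, ih]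

/-- weighted sums over a face -/
theorem sum_insertNth_smul {p : ℕ} {V : Type} [AddCommGroup V] [Module ℝ V] (i : Fin (p + 2))
    (b : Fin (p + 1) → ℝ) (v : Fin (p + 2) → V) :
    ∑ l, (Fin.insertNth i (0 : ℝ) b : Fin (p + 2) → ℝ) l • v l = ∑ l, b l • v (i.succAbove l) := by
  rw [Fin.sum_univ_succAbove _ i]
  simp

/-- the differential is injective on the open cube -/
theorem wt_inj_fderiv {p : ℕ} {s : Fin p → ℝ} (h0 : ∀ j, 0 < s j) (v : Fin p → ℝ)
    (hv : ∀ i, fderiv ℝ (fun z : Fin p → ℝ => wt z i) s v = 0) : v = 0 := by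
  induction p with
  | zero => exact Subsingleton.elim _ _
  | succ k ih =>
    have hp : HasFDerivAt (fun z : Fin (k + 1) → ℝ => z 0)
        (ContinuousLinearMap.proj (R := ℝ) (φ := fun _ : Fin (k + 1) => ℝ) 0) s :=
      (ContinuousLinearMap.proj (R := ℝ) (φ := fun _ : Fin (k + 1) => ℝ) 0).hasFDerivAt
    have hv0 : v 0 = 0 := by
      have h := hv 0
      simp only [wt_zero] at h
      rw [(hp.const_sub 1).fderiv] at h
      simpa using h
    let T : (Fin (k + 1) → ℝ) →L[ℝ] (Fin k → ℝ) :=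
      ContinuousLinearMap.pi fun l => ContinuousLinearMap.proj l.succ
    have hT : ∀ z : Fin (k + 1) → ℝ, T z = fun l => z l.succ := fun _ => rfl
    have ht : (fun l : Fin k => v l.succ) = 0 := by
      refine ih (s := fun l => s l.succ) (fun l => h0 _) _ fun i => ?_
      have hd : HasFDerivAt (fun z : Fin k → ℝ => wt z i)
          (fderiv ℝ (fun z : Fin k → ℝ => wt z i) (T s)) (T s) :=
        ((contDiff_wt i).differentiable (by simp) _).hasFDerivAt
      have hc : HasFDerivAt (fun z : Fin (k + 1) → ℝ => wt (fun l => z l.succ) i)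
          ((fderiv ℝ (fun z : Fin k → ℝ => wt z i) (T s)).comp T) s := hd.comp s T.hasFDerivAt
      have h := hv i.succ
      simp only [wt_succ] at h
      rw [(hp.fun_mul hc).fderiv] at h
      simp only [add_apply, smul_apply,
        ContinuousLinearMap.comp_apply, ContinuousLinearMap.proj_apply, hv0, smul_eq_mul, mul_zero,
        add_zero, hT] at h
      exact (mul_eq_zero.1 h).resolve_left (h0 0).ne'
    funext i
    refine Fin.cases hv0 (fun j => ?_) i
    exact congrFun ht j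

/-- the barycentre is attained in the open cube -/
theorem exists_wt_bary (p : ℕ) :
    ∃ s : Fin p → ℝ, (∀ j, 0 < s j ∧ s j < 1) ∧ ∀ i, wt s i = 1 / ((p : ℝ) + 1) := by
  induction p with
  | zero => exact ⟨fun _ => 0, fun j => j.elim0, fun i => by simp [wt_base]⟩
  | succ k ih =>
    obtain ⟨t, ht, hw⟩ := ih
    have hk : (0 : ℝ) < (k : ℝ) + 1 := by positivity
    have hk2 : (0 : ℝ) < (k : ℝ) + 1 + 1 := by positivity
    refine ⟨Fin.cons (((k : ℝ) + 1) / ((k : ℝ) + 1 + 1)) t, fun j => ?_, fun i => ?_⟩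
    · refine Fin.cases ?_ (fun l => ?_) j
      · rw [Fin.cons_zero]
        exact ⟨by positivity, by rw [div_lt_one hk2]; linarith⟩
      · rw [Fin.cons_succ]; exact ht l
    · rw [wt_cons]
      refine Fin.cases ?_ (fun l => ?_) i
      · rw [Fin.cons_zero]; push_cast; field_simp; ring
      · rw [Fin.cons_succ, hw]; push_cast; field_simp

end Crest.Agent.N222.C
end
end

-- ▼ part N222/C/Hom

/-!
# Row 222, part C: the cochain of a field and its homotopy invariance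

`II H x = ∫ w(F) det DF`, `F (s, p) = ∑ wt s i • H (x i, p)`.
Proof of `hom`: `cell_stokes` for `Φ c p = ∑ wt (tail c) i • ((1 - c 0) • H₀ (x i, p) + c 0 • H₁ (x i, p))`
on `DD Ω x`; faces `c 0 = 1, 0` give `II H₁ x - II H₀ x`; the faces `c (succ j) = 1` and
`c (succ last) = 0` give `JH (x ∘ succAbove i)` (`wt_ins_one`, `wt_ins_zero_last`,
`sum_insertNth_smul`, `CI_dom`), the other faces are degenerate (`wt_ins_zero_update`).
-/

set_option autoImplicit false

open Set Filter Topology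

noncomputable section

namespace Crest.Agent.N222.C

namespace Gl

variable {k r n : ℕ} {Γ V T : Type} [Group Γ] [MulAction Γ V] [MulAction Γ T] (G : Gl Γ V k)
  (eκ : Fin r ≃ KK k)

/-- the common domain of a tuple -/
def DD (Ω : Set (T × G.YY)) {p : ℕ} (x : Fin p → T) : Set G.YY := {η | ∀ i, (x i, η) ∈ Ω}

/-- the cochain of a field -/
def II (s : V → ℝ) (w : (Fin (r + n) → ℝ) → ℝ) (L : ℝ) (Ω : Set (T × G.YY))
    (H : T × G.YY → Fin (r + n) → ℝ) (x : Fin (n + 1) → T) : ℝ :=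
  G.CI eκ s w L (G.DD Ω x) fun c η => ∑ i, wt c i • H (x i, η)

/-- the cochain of a linear homotopy -/
def JH (s : V → ℝ) (w : (Fin (r + (n + 1)) → ℝ) → ℝ) (L : ℝ) (Ω : Set (T × G.YY))
    (H₀ H₁ : T × G.YY → Fin (r + (n + 1)) → ℝ) (x : Fin (n + 1) → T) : ℝ :=
  G.CI eκ s w L (G.DD Ω x) fun c η =>
    ∑ i, wt (Fin.tail c) i • ((1 - c 0) • H₀ (x i, η) + c 0 • H₁ (x i, η))

/-- standing hypotheses on signs and domain -/
structure Set0 [TopologicalSpace T] (χ : Γ →* ℤˣ) (s : V → ℝ) (Ω : Set (T × G.YY)) : Prop where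
  sg : ∀ (γ : Γ) v, s (γ • v) = sg χ γ * s v
  op : IsOpen Ω
  inv : Inv Γ Ω
  fin : ∀ x, {v | ∃ g η, η ∈ Ug g ∧ (x, G.sec g v η) ∈ Ω}.Finite
  wall : ∀ x g v η I, η ∈ Ug g → η (some I) = 0 → (x, G.sec g v η) ∈ Ω → s (G.Φ I v) = -s v

/-- an invariant field which is `C²` in the parameter -/
structure Fld {E : Type} [NormedAddCommGroup E] [NormedSpace ℝ E] (Ω : Set (T × G.YY))
    (H : T × G.YY → E) : Prop where
  inv : ∀ (γ : Γ), ∀ z ∈ Ω, H (γ • z) = H z
  cc : G.CC Ω H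

/-- the support condition over `W` -/
def SC {E : Type} [AddCommGroup E] [Module ℝ E] (w : E → ℝ) (L : ℝ) (Ω : Set (T × G.YY))
    (H₀ H₁ : T × G.YY → E) (W : Set T) : Prop :=
  ∃ K : Set G.YY, IsCompact K ∧ (∀ p ∈ K, ‖p.1.2‖ < L) ∧ (∀ x ∈ W, ∀ p ∈ K, (x, p) ∈ Ω) ∧
    ∀ p, p ∉ K → ∃ C : Set E, Convex ℝ C ∧ (∀ t ∈ C, w t = 0) ∧
      ∀ x ∈ W, (x, p) ∈ Ω → H₀ (x, p) ∈ C ∧ H₁ (x, p) ∈ C

variable {G eκ} [TopologicalSpace T] {χ : Γ →* ℤˣ} {s : V → ℝ} {Ω : Set (T × G.YY)}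

omit [MulAction Γ T] in
theorem isOpen_DD (h : IsOpen Ω) {p : ℕ} (x : Fin p → T) : IsOpen (G.DD Ω x) := by
  rw [DD, ofPred_forall]
  exact isOpen_iInter_of_finite fun i => h.preimage (Continuous.prodMk_right (x i))

theorem Set0.dom (h : G.Set0 χ s Ω) {p : ℕ} (x : Fin (p + 1) → T) : G.Dom s (G.DD Ω x) := by
  refine ⟨isOpen_DD h.op x, (h.fin (x 0)).subset ?_, fun g v η I hη h0 hD => ?_⟩
  · rintro v ⟨g, η, hη, hD⟩
    exact ⟨g, η, hη, hD 0⟩
  · exact h.wall (x 0) g v η I hη h0 (hD 0)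

theorem tw_JH (h : G.Set0 χ s Ω) (w : (Fin (r + (n + 1)) → ℝ) → ℝ) (L : ℝ)
    {H₀ H₁ : T × G.YY → Fin (r + (n + 1)) → ℝ} (h₀ : G.Fld Ω H₀) (h₁ : G.Fld Ω H₁) :
    Tw χ (G.JH eκ s w L Ω H₀ H₁) := by
  intro γ y
  refine CI_smul (D' := G.DD Ω fun i => γ • y i) (h.sg γ) w L (isOpen_DD h.op y)
    (fun p => ⟨fun hp i => ?_, fun hp i => ?_⟩) fun c p hp => ?_
  · have := h.inv γ⁻¹ _ (hp i)
    simpa using this
  · exact h.inv γ _ (hp i)
  · refine Finset.sum_congr rfl fun i _ => ?_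
    rw [← h₀.inv γ _ (hp i), ← h₁.inv γ _ (hp i)]
    rfl

/-- convex combinations along the homotopy -/
theorem comb_mem {E : Type} [AddCommGroup E] [Module ℝ E] {C : Set E} (hC : Convex ℝ C) {m : ℕ}
    {c : Fin (m + 1) → ℝ} (hc : c ∈ Icc (0 : Fin (m + 1) → ℝ) 1) {a b : Fin (m + 1) → E}
    (ha : ∀ i, a i ∈ C) (hb : ∀ i, b i ∈ C) :
    ∑ i, wt (Fin.tail c) i • ((1 - c 0) • a i + c 0 • b i) ∈ C := by
  refine hC.sum_mem (fun i _ => wt_nonneg (fun j => hc.1 j.succ) (fun j => hc.2 j.succ) i)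
    (wt_sum _) fun i _ => ?_
  exact hC (ha i) (hb i) (sub_nonneg.2 (hc.2 0)) (hc.1 0) (sub_add_cancel _ _)

theorem ins_succ {m : ℕ} (j : Fin (m + 1)) (c : ℝ) (z : Fin (m + 1) → ℝ) :
    ins j.succ c z = (Fin.cons (z 0) (Fin.insertNth j c (Fin.tail z)) : Fin (m + 2) → ℝ) := by
  conv_lhs => rw [← Fin.cons_self_tail z]
  rw [ins, Fin.insertNth_succ_cons]

/-- **homotopy invariance** -/
theorem hom (h : G.Set0 χ s Ω) {w : (Fin (r + (n + 1)) → ℝ) → ℝ} (hw : ContDiff ℝ 1 w) {L : ℝ}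
    (hL : 0 ≤ L) {H₀ H₁ : T × G.YY → Fin (r + (n + 1)) → ℝ} (h₀ : G.Fld Ω H₀) (h₁ : G.Fld Ω H₁)
    {W : Set T} (hW : G.SC w L Ω H₀ H₁ W) {x : Fin (n + 2) → T} (hx : ∀ i, x i ∈ W) :
    G.II eκ s w L Ω H₁ x - G.II eκ s w L Ω H₀ x = cob (G.JH eκ s w L Ω H₀ H₁) x := by
  obtain ⟨K, hK, hKL, hKΩ, hC⟩ := hW
  set Φ : (Fin (n + 2) → ℝ) → G.YY → Fin (r + (n + 1)) → ℝ := fun c η =>
    ∑ i, wt (Fin.tail c) i • ((1 - c 0) • H₀ (x i, η) + c 0 • H₁ (x i, η)) with hΦ
  have hsm : G.Sm2 (G.DD Ω x) Φ := by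
    intro g v
    refine ContDiffOn.sum fun i _ => ?_
    have ht : ContDiff ℝ 2 (fun z : (Fin (n + 2) → ℝ) × (KK k → ℝ) => Fin.tail z.1) := by
      unfold Fin.tail; fun_prop
    have hw1 : ContDiff ℝ 2 (fun z : (Fin (n + 2) → ℝ) × (KK k → ℝ) => wt (Fin.tail z.1) i) :=
      ((contDiff_wt i).of_le (WithTop.coe_le_coe.2 (le_top : (2 : ℕ∞) ≤ ⊤))).comp ht
    have hc0 : ContDiff ℝ 2 (fun z : (Fin (n + 2) → ℝ) × (KK k → ℝ) => z.1 0) := by fun_prop
    have e0 : ContDiffOn ℝ 2 (fun z : (Fin (n + 2) → ℝ) × (KK k → ℝ) => H₀ (x i, G.sec g v z.2))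
        {z | z.2 ∈ Ug g ∧ G.sec g v z.2 ∈ G.DD Ω x} :=
      (h₀.cc (x i) g v).comp contDiff_snd.contDiffOn fun z hz => ⟨hz.1, hz.2 i⟩
    have e1 : ContDiffOn ℝ 2 (fun z : (Fin (n + 2) → ℝ) × (KK k → ℝ) => H₁ (x i, G.sec g v z.2))
        {z | z.2 ∈ Ug g ∧ G.sec g v z.2 ∈ G.DD Ω x} :=
      (h₁.cc (x i) g v).comp contDiff_snd.contDiffOn fun z hz => ⟨hz.1, hz.2 i⟩
    exact hw1.contDiffOn.smul
      (((contDiff_const.sub hc0).contDiffOn.smul e0).add (hc0.contDiffOn.smul e1))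
  have hst := cell_stokes (eκ := eκ) hw hL (h.dom x) hsm hK (fun p hp i => hKΩ _ (hx i) p hp) hKL
    (fun c hc p hp hpK => by
      obtain ⟨C, hCc, hCw, hCH⟩ := hC p hpK
      exact hCw _ (comb_mem hCc hc (fun i => (hCH _ (hx i) (hp i)).1)
        fun i => (hCH _ (hx i) (hp i)).2))
  -- faces opposite to a vertex
  have hface : ∀ i : Fin (n + 2), G.CI eκ s w L (G.DD Ω x) (fun (z : Fin (n + 1) → ℝ) η =>
      ∑ l, (Fin.insertNth i (0 : ℝ) (wt (Fin.tail z)) : Fin (n + 2) → ℝ) l •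
        ((1 - z 0) • H₀ (x l, η) + z 0 • H₁ (x l, η))) =
      G.JH eκ s w L Ω H₀ H₁ fun j => x (i.succAbove j) := by
    intro i
    simp only [sum_insertNth_smul]
    refine CI_dom (D := G.DD Ω x) (D' := G.DD Ω fun j => x (i.succAbove j)) s w L
      (fun p hp j => hp _) fun c hc p hp hne => ?_
    by_contra hpD
    by_cases hpK : p ∈ K
    · exact hpD fun j => hKΩ _ (hx j) p hpK
    · obtain ⟨C, hCc, hCw, hCH⟩ := hC p hpK
      exact hne (hCw _ (comb_mem hCc hc (fun j => (hCH _ (hx _) (hp j)).1)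
        fun j => (hCH _ (hx _) (hp j)).2))
  have e1 : G.CI eκ s w L (G.DD Ω x) (fun z => Φ (ins 0 1 z)) = G.II eκ s w L Ω H₁ x := by
    simp [hΦ, II, ins]
  have e0 : G.CI eκ s w L (G.DD Ω x) (fun z => Φ (ins 0 0 z)) = G.II eκ s w L Ω H₀ x := by
    simp [hΦ, II, ins]
  have f1 : ∀ j : Fin (n + 1), G.CI eκ s w L (G.DD Ω x) (fun z => Φ (ins j.succ 1 z)) =
      G.JH eκ s w L Ω H₀ H₁ fun l => x (j.castSucc.succAbove l) := by
    intro j
    rw [← hface]
    simp only [hΦ, ins_succ, Fin.tail_cons, Fin.cons_zero, wt_ins_one]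
  have f0 : G.CI eκ s w L (G.DD Ω x) (fun z => Φ (ins (Fin.last n).succ 0 z)) =
      G.JH eκ s w L Ω H₀ H₁ fun l => x ((Fin.last (n + 1)).succAbove l) := by
    rw [← hface]
    simp only [hΦ, ins_succ, Fin.tail_cons, Fin.cons_zero, wt_ins_zero_last]
  have fd : ∀ j : Fin n, G.CI eκ s w L (G.DD Ω x) (fun z => Φ (ins j.castSucc.succ 0 z)) = 0 := by
    intro j
    refine CI_eq_zero_of_update s w L _ j.succ fun c t p => ?_
    simp only [hΦ, ins_succ, Fin.tail_cons, Fin.cons_zero, Fin.tail_update_succ,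
      wt_ins_zero_update, Function.update_of_ne (Fin.succ_ne_zero j).symm]
  rw [Fin.sum_univ_succ, e1, e0] at hst
  simp only [f1, mul_sub, Finset.sum_sub_distrib] at hst
  rw [Fin.sum_univ_castSucc (fun j : Fin (n + 1) => (-1 : ℝ) ^ ((j.succ : Fin (n + 2)) : ℕ) *
    G.CI eκ s w L (G.DD Ω x) (fun z => Φ (ins j.succ 0 z))), f0] at hst
  simp only [fd, mul_zero, Finset.sum_const_zero, zero_add, Fin.val_zero, pow_zero, one_mul,
    Fin.val_succ, pow_succ, Fin.val_last, mul_neg, mul_one, neg_mul, Finset.sum_neg_distrib] at hst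
  rw [cob, Fin.sum_univ_castSucc]
  simp only [Fin.val_castSucc, Fin.val_last, pow_succ, mul_neg, mul_one, neg_mul]
  linarith

omit [MulAction Γ T] [TopologicalSpace T] in
theorem II_eq_zero (s : V → ℝ) {w : (Fin (r + n) → ℝ) → ℝ} (L : ℝ)
    {H : T × G.YY → Fin (r + n) → ℝ} {x : Fin (n + 1) → T}
    (h : ∀ p, ∃ C : Set (Fin (r + n) → ℝ), Convex ℝ C ∧ (∀ t ∈ C, w t = 0) ∧
      ((∀ i, (x i, p) ∈ Ω) → ∀ i, H (x i, p) ∈ C)) : G.II eκ s w L Ω H x = 0 := by
  refine CI_eq_zero s L fun c hc p hp => ?_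
  obtain ⟨C, hCc, hCw, hCH⟩ := h p
  exact hCw _ (hCc.sum_mem (fun i _ => wt_nonneg (fun j => hc.1 j) (fun j => hc.2 j) i)
    (wt_sum _) fun i _ => hCH hp i)

end Gl

end Crest.Agent.N222.C
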