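import Crest.Agent.N222.C.Glue
import Crest.Agent.N222.C.Cnt
import Crest.Agent.N222.C.Poly
import Crest.Agent.N222.C.Hom

-- ▼ part N222/C/Sheet
section

/-!
# Row 222, part C: sheets and their gluing (Gaifullin's construction)

A sheet is a partial colouring `lam` of labels, an ordering `pos` of the colours, and a copy index.
`Rel I` = "same data on the wall `a_j = 0, j ∈ I`", `PP I` = the equivariant sign reversing
involutions along `Rel I`, `VV = UU × ∏ PP I` with the commuting involutions `Φ I`.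
-/

set_option autoImplicit false

open Set

noncomputable section

namespace Crest.Agent.N222.C

/-- combinatorial data: an equivariant family of sets `O y` and a cocycle on the labels -/
structure Dat (Γ T L : Type) [Group Γ] [MulAction Γ T] [MulAction Γ L] (n k : ℕ) where
  χ : Γ →* ℤˣ
  O : L → Set T
  O_smul : ∀ (g : Γ) y x, g • x ∈ O (g • y) ↔ x ∈ O y
  free : ∀ (g : Γ) (y : L), g • y = y → g = 1
  reps : Finset L
  cover : ∀ y, ∃ g : Γ, g • y ∈ reps
  nb_fin : ∀ y, {y' | (O y ∩ O y').Nonempty}.Finite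
  nb_card : ∀ y, {y' | (O y ∩ O y').Nonempty}.ncard ≤ n + 1 + k
  α : (Fin (n + 1) → L) → ℝ
  tw : Tw χ α
  coc : cob α = 0
  int : ∀ σ : Fin (n + 1) → L, (∃ x, ∀ i, x ∈ O (σ i)) → ∃ z : ℤ, α σ = z

/-- raw sheets -/
@[ext] structure Sh (L : Type) (n k : ℕ) where
  /-- the label of a colour -/
  lam : Col n k → Option L
  /-- the colour of a position -/
  pos : Equiv.Perm (Col n k)
  /-- the labels of the first block -/
  sig : Fin (n + 1) → L
  /-- the copy -/
  cp : ℕ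

variable {Γ T L : Type} [Group Γ] [MulAction Γ T] [MulAction Γ L] {n k : ℕ}

instance : MulAction Γ (Sh L n k) where
  smul g u := ⟨fun c => (u.lam c).map (g • ·), u.pos, fun i => g • u.sig i, u.cp⟩
  one_smul u := by
    refine Sh.ext (funext fun c => ?_) rfl (funext fun i => one_smul _ _) rfl
    change (u.lam c).map ((1 : Γ) • ·) = u.lam c
    cases u.lam c <;> simp
  mul_smul a b u := by
    refine Sh.ext (funext fun c => ?_) rfl (funext fun i => mul_smul _ _ _) rfl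
    change (u.lam c).map ((a * b) • ·) = ((u.lam c).map (b • ·)).map (a • ·)
    cases u.lam c <;> simp [mul_smul]

theorem Sh.smul_lam (g : Γ) (u : Sh L n k) (c : Col n k) :
    (g • u).lam c = (u.lam c).map (g • ·) := rfl

theorem Sh.smul_pos (g : Γ) (u : Sh L n k) : (g • u).pos = u.pos := rfl



/-- the gaps below a position which are not in `I` -/
def blk (I : Finset (Fin k)) : Col n k → Finset (Fin k)
  | Sum.inl _ => ∅
  | Sum.inr j => Finset.Iic j \ I

namespace Dat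

variable (d : Dat Γ T L n k)

/-- the points on which all colours of the top block (after merging along `I`) are active -/
def X (I : Finset (Fin k)) (u : Sh L n k) : Set T :=
  {x | ∀ c, blk I (u.pos.symm c) = ∅ → ∃ y, u.lam c = some y ∧ x ∈ d.O y}

/-- the labels which are active somewhere on `X I u` -/
def A (I : Finset (Fin k)) (u : Sh L n k) : Set L := {y | (d.O y ∩ d.X I u).Nonempty}

/-- same data on the wall `I` -/
structure Rel (I : Finset (Fin k)) (u u' : Sh L n k) : Prop where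
  blk : ∀ c, blk I (u.pos.symm c) = blk I (u'.pos.symm c)
  X : d.X I u = d.X I u'
  lam : ∀ c, ∀ y ∈ d.A I u, u.lam c = some y ↔ u'.lam c = some y

/-- valid sheets -/
structure Valid (u : Sh L n k) : Prop where
  sig : ∀ i, u.lam (u.pos (Sum.inl i)) = some (u.sig i)
  ne : (d.X ∅ u).Nonempty
  inj : PInj u.lam
  img : ∀ y, (∃ c, u.lam c = some y) ↔ y ∈ d.A ∅ u
  cp : u.cp < ⌊|d.α u.sig|⌋₊ * (n + 1 + k - (d.A ∅ u).ncard).factorial

variable {d}

theorem blk_sdiff {I K : Finset (Fin k)} (h : I ⊆ K) (p : Col n k) : blk K p = blk I p \ K := by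
  cases p with
  | inl i => simp [blk]
  | inr j =>
    ext a
    simp only [blk, Finset.mem_sdiff]
    exact ⟨fun ha => ⟨⟨ha.1, fun hI => ha.2 (h hI)⟩, ha.2⟩, fun ha => ⟨ha.1.1, ha.2⟩⟩

theorem map_smul_eq_some (g : Γ) (o : Option L) (y : L) :
    o.map (g • ·) = some (g • y) ↔ o = some y := by
  cases o <;> simp

theorem X_anti {I K : Finset (Fin k)} (h : I ⊆ K) (u : Sh L n k) : d.X K u ⊆ d.X I u := by
  intro x hx c hc
  exact hx c (by rw [blk_sdiff h, hc, Finset.empty_sdiff])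

theorem X_smul (I : Finset (Fin k)) (g : Γ) (u : Sh L n k) (x : T) :
    g • x ∈ d.X I (g • u) ↔ x ∈ d.X I u := by
  refine forall_congr' fun c => imp_congr_right fun _ => ⟨?_, ?_⟩
  · rintro ⟨y, hy, hx⟩
    rw [← smul_inv_smul g y] at hy hx
    exact ⟨_, (map_smul_eq_some g _ _).1 hy, (d.O_smul _ _ _).1 hx⟩
  · rintro ⟨y, hy, hx⟩
    exact ⟨g • y, (map_smul_eq_some g _ _).2 hy, (d.O_smul _ _ _).2 hx⟩

theorem A_smul (I : Finset (Fin k)) (g : Γ) (u : Sh L n k) (y : L) :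
    g • y ∈ d.A I (g • u) ↔ y ∈ d.A I u := by
  constructor
  · rintro ⟨x, h1, h2⟩
    rw [← smul_inv_smul g x] at h1 h2
    exact ⟨_, (d.O_smul _ _ _).1 h1, (X_smul _ _ _ _).1 h2⟩
  · rintro ⟨x, h1, h2⟩
    exact ⟨g • x, (d.O_smul _ _ _).2 h1, (X_smul _ _ _ _).2 h2⟩

theorem A_anti {I K : Finset (Fin k)} (h : I ⊆ K) (u : Sh L n k) : d.A K u ⊆ d.A I u :=
  fun _ ⟨x, h1, h2⟩ => ⟨x, h1, X_anti h u h2⟩

theorem Rel.A_eq {I : Finset (Fin k)} {u u' : Sh L n k} (r : d.Rel I u u') :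
    d.A I u = d.A I u' := by
  rw [A, A, r.X]

theorem A_smul_eq (I : Finset (Fin k)) (g : Γ) (u : Sh L n k) :
    d.A I (g • u) = (g • ·) '' d.A I u := by
  ext y
  refine ⟨fun h => ⟨g⁻¹ • y, (A_smul I g u _).1 (by rwa [smul_inv_smul]), smul_inv_smul g y⟩, ?_⟩
  rintro ⟨y, h, rfl⟩
  exact (A_smul I g u y).2 h

theorem nonempty_X_smul {I : Finset (Fin k)} {u : Sh L n k} (h : (d.X I u).Nonempty) (g : Γ) :
    (d.X I (g • u)).Nonempty :=
  ⟨g • h.some, (X_smul _ _ _ _).2 h.some_mem⟩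

theorem rel_equiv (I : Finset (Fin k)) : Equivalence (d.Rel I) := by
  refine ⟨fun u => ⟨fun _ => rfl, rfl, fun _ _ _ => Iff.rfl⟩, fun r => ⟨fun c => (r.blk c).symm,
    r.X.symm, fun c y hy => (r.lam c y (r.A_eq ▸ hy)).symm⟩, fun r r' => ⟨fun c =>
    (r.blk c).trans (r'.blk c), r.X.trans r'.X, fun c y hy =>
    (r.lam c y hy).trans (r'.lam c y (r.A_eq ▸ hy))⟩⟩

theorem Rel.mono {I K : Finset (Fin k)} (h : I ⊆ K) {u u' : Sh L n k} (r : d.Rel I u u') :
    d.Rel K u u' := by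
  have key : ∀ {u u' : Sh L n k}, d.Rel I u u' → d.X K u ⊆ d.X K u' := fun {u u'} r x hx c hc => by
    obtain ⟨y, hy, hxy⟩ := hx c (by rwa [blk_sdiff h, r.blk, ← blk_sdiff h])
    exact ⟨y, (r.lam c y ⟨x, hxy, X_anti h u hx⟩).1 hy, hxy⟩
  exact ⟨fun c => by rw [blk_sdiff h, r.blk, ← blk_sdiff h],
    (key r).antisymm (key ((rel_equiv I).symm r)), fun c y hy => r.lam c y (A_anti h u hy)⟩

theorem Rel.smul {I : Finset (Fin k)} {u u' : Sh L n k} (r : d.Rel I u u') (g : Γ) :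
    d.Rel I (g • u) (g • u') := by
  refine ⟨r.blk, Set.ext fun x => ?_, fun c y hy => ?_⟩
  · rw [← smul_inv_smul g x, X_smul, X_smul, r.X]
  · rw [← smul_inv_smul g y] at hy ⊢
    rw [Sh.smul_lam, Sh.smul_lam, map_smul_eq_some, map_smul_eq_some]
    exact r.lam c _ ((A_smul _ _ _ _).1 hy)

theorem α_smul (g : Γ) (u : Sh L n k) : d.α (g • u).sig = sg d.χ g * d.α u.sig := d.tw g u.sig

theorem Valid.smul {u : Sh L n k} (h : d.Valid u) (g : Γ) : d.Valid (g • u) := by
  refine ⟨fun i => (map_smul_eq_some g _ _).2 (h.sig i), nonempty_X_smul h.ne g,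
    fun c c' y h1 h2 => ?_, fun y => ?_, ?_⟩
  · rw [← smul_inv_smul g y, Sh.smul_lam, map_smul_eq_some] at h1 h2
    exact h.inj c c' _ h1 h2
  · rw [← smul_inv_smul g y, A_smul, ← h.img]
    simp only [Sh.smul_lam, map_smul_eq_some]
  · have e : |sg d.χ g| = 1 := by rcases sg_eq d.χ g with e | e <;> simp [e]
    rw [α_smul, abs_mul, e, one_mul, A_smul_eq,
      Set.ncard_image_of_injective _ (MulAction.injective g)]
    exact h.cp

theorem Valid.mem_X {u : Sh L n k} (h : d.Valid u) {x : T} :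
    x ∈ d.X ∅ u ↔ ∀ i, x ∈ d.O (u.sig i) := by
  constructor
  · intro hx i
    obtain ⟨y, hy, hxy⟩ := hx (u.pos (Sum.inl i)) (by simp [blk])
    rwa [Option.some_injective _ ((h.sig i).symm.trans hy)]
  · intro hx c hc
    obtain ⟨p, rfl⟩ := u.pos.surjective c
    rw [Equiv.symm_apply_apply] at hc
    cases p with
    | inl i => exact ⟨_, h.sig i, hx i⟩
    | inr j =>
      have : j ∈ blk (n := n) ∅ (Sum.inr j) := by simp [blk]
      simp [hc] at this

theorem Valid.sig_inj {u : Sh L n k} (h : d.Valid u) : Function.Injective u.sig := by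
  intro i i' e
  exact Sum.inl_injective (u.pos.injective (h.inj _ _ _ (h.sig i) (e ▸ h.sig i')))

theorem Valid.free {u : Sh L n k} (h : d.Valid u) {I : Finset (Fin k)} (hI : (d.X I u).Nonempty)
    {g : Γ} (r : d.Rel I u (g • u)) : g = 1 := by
  obtain ⟨x, hx⟩ := hI
  have h1 := (r.lam _ _ ⟨x, h.mem_X.1 (X_anti (Finset.empty_subset _) u hx) 0, hx⟩).1 (h.sig 0)
  rw [Sh.smul_lam, h.sig 0] at h1
  exact d.free g _ (Option.some_injective _ h1)

variable (d)

/-- the sheets -/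
def U : Type := {u : Sh L n k // d.Valid u}

instance : MulAction Γ d.U where
  smul g u := ⟨g • u.1, u.2.smul g⟩
  one_smul u := Subtype.ext (one_smul _ _)
  mul_smul a b u := Subtype.ext (mul_smul a b _)

theorem smul_val (g : Γ) (u : d.U) : (g • u).1 = g • u.1 := rfl

/-- the sign of a sheet -/
def sgn (u : d.U) : ℝ :=
  (if 0 < d.α u.1.sig then 1 else -1) * ((Equiv.Perm.sign u.1.pos : ℤ) : ℝ)

theorem sgn_eq (u : d.U) : d.sgn u = 1 ∨ d.sgn u = -1 := by
  unfold sgn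
  rcases Int.units_eq_one_or (Equiv.Perm.sign u.1.pos) with h | h <;> split_ifs <;> simp [h]

theorem α_ne_zero (u : d.U) : d.α u.1.sig ≠ 0 := fun h => by
  simpa [h] using u.2.cp

theorem sgn_smul (g : Γ) (u : d.U) : d.sgn (g • u) = sg d.χ g * d.sgn u := by
  have h0 := d.α_ne_zero u
  rw [sgn, sgn, smul_val, α_smul, Sh.smul_pos]
  rcases sg_eq d.χ g with e | e
  · simp [e]
  · rcases h0.lt_or_gt with h | h
    · simp [e, h, h.le]
    · simp [e, h, h.le]

/-- finitely many sheets have their first label in a finite set -/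
theorem finite_sig {B : Set L} (hB : B.Finite) : {u : d.U | u.1.sig 0 ∈ B}.Finite := by
  have hN : (⋃ y ∈ B, {y' | (d.O y ∩ d.O y').Nonempty}).Finite := hB.biUnion fun y _ => d.nb_fin y
  set N := ⋃ y ∈ B, {y' | (d.O y ∩ d.O y').Nonempty} with hNe
  have h1 : ({σ : Fin (n + 1) → L | ∀ i, σ i ∈ N}).Finite := Set.Finite.pi' fun _ => hN
  have h2 := h1.biUnion fun σ _ => (finite_singleton σ).prod
    (finite_Iio (⌊|d.α σ|⌋₊ * (n + 1 + k).factorial))
  have h3 := ((finite_ext (α := Col n k) hN).prod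
    (finite_univ (α := Equiv.Perm (Col n k)))).prod h2
  refine Set.Finite.of_finite_image
    (f := fun u : d.U => ((u.1.lam, u.1.pos), (u.1.sig, u.1.cp))) (h3.subset ?_) ?_
  · rintro _ ⟨u, hu, rfl⟩
    have hl : ∀ c y, u.1.lam c = some y → y ∈ N := fun c y h => by
      obtain ⟨x, hx, hx'⟩ := (u.2.img y).1 ⟨c, h⟩
      exact mem_biUnion hu ⟨x, u.2.mem_X.1 hx' 0, hx⟩
    refine ⟨⟨hl, mem_univ _⟩, mem_biUnion (x := u.1.sig) (fun i => hl _ _ (u.2.sig i)) ⟨rfl, ?_⟩⟩
    exact u.2.cp.trans_le (Nat.mul_le_mul_left _ (Nat.factorial_le (Nat.sub_le _ _)))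
  · intro u _ u' _ e
    simp only [Prod.mk.injEq] at e
    exact Subtype.ext (Sh.ext e.1.1 e.1.2 e.2.1 e.2.2)

theorem finite_X (x : T) : {u : d.U | x ∈ d.X ∅ u.1}.Finite := by
  have h : {y | x ∈ d.O y}.Finite := by
    rcases {y | x ∈ d.O y}.eq_empty_or_nonempty with h | ⟨y, hy⟩
    · rw [h]; exact finite_empty
    · exact (d.nb_fin y).subset fun y' hy' => ⟨x, hy, hy'⟩
  exact (d.finite_sig h).subset fun u hu => u.2.mem_X.1 hu 0

theorem finite_rel {I : Finset (Fin k)} (u : d.U) (hu : (d.X I u.1).Nonempty) :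
    {u' : d.U | d.Rel I u.1 u'.1}.Finite :=
  (d.finite_X hu.some).subset fun _ r =>
    X_anti (Finset.empty_subset _) _ ((Rel.X r).subset hu.some_mem)

/-! ### the three counts -/

theorem blk_empty {q : Col n k} : blk ∅ q = ∅ ↔ ∃ i, q = Sum.inl i := by
  rcases q with i | i
  · exact ⟨fun _ => ⟨i, rfl⟩, fun _ => rfl⟩
  · refine ⟨fun h => absurd h (Finset.ne_empty_of_mem (a := i) ?_), fun ⟨_, h⟩ => by cases h⟩
    simp [blk]

/-- the labels which are active somewhere on the intersection of the `O (σ i)` -/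
def As (σ : Fin (n + 1) → L) : Set L := {y | ∃ x ∈ d.O y, ∀ i, x ∈ d.O (σ i)}

theorem mem_X_empty {u : Sh L n k} (h : ∀ i, u.lam (u.pos (Sum.inl i)) = some (u.sig i)) {x : T} :
    x ∈ d.X ∅ u ↔ ∀ i, x ∈ d.O (u.sig i) := by
  refine ⟨fun hx i => ?_, fun hx c hc => ?_⟩
  · obtain ⟨y, hy, hxy⟩ := hx (u.pos (Sum.inl i)) (by rw [Equiv.symm_apply_apply]; rfl)
    rwa [← Option.some_injective _ (hy.symm.trans (h i))]
  · obtain ⟨i, hi⟩ := blk_empty.1 hc
    exact ⟨_, by rw [← h i, ← hi, Equiv.apply_symm_apply], hx i⟩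

theorem A_empty {u : Sh L n k} (h : ∀ i, u.lam (u.pos (Sum.inl i)) = some (u.sig i)) :
    d.A ∅ u = d.As u.sig :=
  Set.ext fun _ => exists_congr fun _ => and_congr_right fun _ => d.mem_X_empty h

theorem As_sub (σ : Fin (n + 1) → L) : d.As σ ⊆ {y' | (d.O (σ 0) ∩ d.O y').Nonempty} :=
  fun _ ⟨x, h, h'⟩ => ⟨x, h' 0, h⟩

/-- the sheets with given positions and first block which agree with `lam₀` on `B` -/
def Fib (p : Equiv.Perm (Col n k)) (σ : Fin (n + 1) → L) (B : Set L) (lam₀ : Col n k → Option L) :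
    Set d.U :=
  {u | u.1.pos = p ∧ u.1.sig = σ ∧ ∀ c, ∀ y ∈ B, u.1.lam c = some y ↔ lam₀ c = some y}

theorem finite_Fib (p : Equiv.Perm (Col n k)) (σ : Fin (n + 1) → L) (B : Set L)
    (lam₀ : Col n k → Option L) : (d.Fib p σ B lam₀).Finite :=
  (d.finite_sig (finite_singleton (σ 0))).subset fun _ h => congrFun h.2.1 0

theorem card_Fib {p : Equiv.Perm (Col n k)} {σ : Fin (n + 1) → L} {B : Set L}
    {lam₀ : Col n k → Option L} (hx : ∃ x, ∀ i, x ∈ d.O (σ i)) (hσ : ∀ i, σ i ∈ B)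
    (hB : B ⊆ d.As σ) (h₀ : ∀ y ∈ B, ∃! c, lam₀ c = some y)
    (hp : ∀ i, lam₀ (p (Sum.inl i)) = some (σ i)) :
    (d.Fib p σ B lam₀).ncard = (n + 1 + k - B.ncard).factorial * ⌊|d.α σ|⌋₊ := by
  have hA : (d.As σ).Finite := (d.nb_fin _).subset (d.As_sub σ)
  have h1 : (d.As σ).ncard ≤ n + 1 + k :=
    (ncard_le_ncard (d.As_sub σ) (d.nb_fin _)).trans (d.nb_card _)
  have h2 : B.ncard ≤ (d.As σ).ncard := ncard_le_ncard hB hA
  have hc := card_ext hA hB h₀
  rw [Fintype.card_sum, Fintype.card_fin, Fintype.card_fin] at hc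
  have h3 := Nat.factorial_mul_descFactorial
    (show (d.As σ).ncard - B.ncard ≤ n + 1 + k - B.ncard by omega)
  rw [show n + 1 + k - B.ncard - ((d.As σ).ncard - B.ncard) = n + 1 + k - (d.As σ).ncard by omega,
    ← hc] at h3
  rw [← h3, mul_right_comm, mul_comm, mul_comm (Nat.factorial _), ← Nat.card_coe_set_eq,
    ← Nat.card_fin (_ * Nat.factorial _), ← Nat.card_prod]
  have hs : ∀ (lam : Col n k → Option L) (c : ℕ),
      (∀ c, ∀ y ∈ B, lam c = some y ↔ lam₀ c = some y) →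
      ∀ i, (Sh.mk lam p σ c).lam ((Sh.mk lam p σ c).pos (Sum.inl i)) = some ((Sh.mk lam p σ c).sig i) :=
    fun lam c h i => (h _ _ (hσ i)).2 (hp i)
  refine (Nat.card_eq_of_bijective (fun z => ⟨⟨⟨z.1.1, p, σ, z.2⟩, hs _ _ z.1.2.2.2,
    hx.imp fun x h => (d.mem_X_empty (hs _ _ z.1.2.2.2)).2 h, z.1.2.1,
    fun y => by rw [d.A_empty (hs _ _ z.1.2.2.2)]; exact z.1.2.2.1 y,
    by rw [d.A_empty (hs _ _ z.1.2.2.2)]; exact z.2.2⟩,
    rfl, rfl, z.1.2.2.2⟩) ⟨fun z z' h => ?_, ?_⟩).symm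
  · exact Prod.ext (Subtype.ext (congrArg (fun u : d.Fib p σ B lam₀ => u.1.1.lam) h))
      (Fin.ext (congrArg (fun u : d.Fib p σ B lam₀ => u.1.1.cp) h))
  · rintro ⟨⟨⟨lam, p', σ', c⟩, hv⟩, rfl, rfl, h⟩
    have e := d.A_empty hv.sig
    exact ⟨(⟨lam, hv.inj, fun y => (hv.img y).trans (by rw [e]), h⟩,
      ⟨c, by have := hv.cp; rwa [e] at this⟩), rfl⟩

theorem sum_Fib {p : Equiv.Perm (Col n k)} {σ : Fin (n + 1) → L} {B : Set L}
    {lam₀ : Col n k → Option L} (hx : ∃ x, ∀ i, x ∈ d.O (σ i)) (hσ : ∀ i, σ i ∈ B)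
    (hB : B ⊆ d.As σ) (h₀ : ∀ y ∈ B, ∃! c, lam₀ c = some y)
    (hp : ∀ i, lam₀ (p (Sum.inl i)) = some (σ i)) {f : d.U → ℝ} {s : ℝ}
    (hf : ∀ u ∈ d.Fib p σ B lam₀, f u = (if 0 < d.α σ then 1 else -1) * s) :
    ∑ᶠ u ∈ d.Fib p σ B lam₀, f u = (n + 1 + k - B.ncard).factorial * (s * d.α σ) := by
  rw [finsum_mem_congr rfl hf, finsum_mem_eq_finite_toFinset_sum _ (d.finite_Fib p σ B lam₀),
    Finset.sum_const, ← ncard_eq_toFinset_card _ (d.finite_Fib p σ B lam₀), d.card_Fib hx hσ hB h₀ hp, nsmul_eq_mul,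
    Nat.cast_mul]
  obtain ⟨z, hz⟩ := d.int σ hx
  have h1 : (⌊|d.α σ|⌋₊ : ℝ) = |d.α σ| := by
    rw [hz, ← Int.cast_abs, ← Int.natCast_natAbs, Int.cast_natCast, Nat.floor_natCast]
  rw [h1]
  split_ifs with h
  · rw [abs_of_pos h]; ring
  · rw [abs_of_nonpos (not_lt.1 h)]; ring

/-- the signed number of sheets with given first block -/
theorem sum_sig {σ : Fin (n + 1) → L} (hσ : Function.Injective σ) (hx : ∃ x, ∀ i, x ∈ d.O (σ i)) :
    ∑ᶠ u ∈ {u : d.U | u.1.sig = σ}, (if 0 < d.α u.1.sig then 1 else -1 : ℝ) =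
      ((n + 1 + k).factorial * k.factorial : ℕ) * d.α σ := by
  let l : Equiv.Perm (Col n k) → Col n k → Option L := fun p c =>
    (p.symm c).elim (fun i => some (σ i)) fun _ => none
  have hl : ∀ p c i, l p c = some (σ i) ↔ c = p (Sum.inl i) := fun p c i => by
    obtain ⟨q, rfl⟩ := p.surjective c
    rcases q with i' | i' <;> simp [l, hσ.eq_iff]
  have e : {u : d.U | u.1.sig = σ} = ⋃ p, d.Fib p σ (range σ) (l p) := by
    refine Set.ext fun u => ⟨fun h => mem_iUnion.2 ⟨u.1.pos, rfl, h, ?_⟩,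
      fun h => (mem_iUnion.1 h).choose_spec.2.1⟩
    rintro c _ ⟨i, rfl⟩
    have h1 : u.1.lam (u.1.pos (Sum.inl i)) = some (σ i) := h ▸ u.2.sig i
    rw [hl]
    exact ⟨fun h2 => u.2.inj _ _ _ h2 h1, fun h2 => h2 ▸ h1⟩
  have hc : (range σ).ncard = n + 1 := by
    rw [← image_univ, ncard_image_of_injective _ hσ, ncard_univ, Nat.card_fin]
  rw [e, finsum_mem_iUnion (fun p p' h => disjoint_left.2 fun u h1 h2 => h (h1.1.symm.trans h2.1))
    fun p => d.finite_Fib _ _ _ _, finsum_eq_sum_of_fintype,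
    Finset.sum_congr rfl fun p _ => d.sum_Fib (s := 1) hx mem_range_self
      (by rintro _ ⟨i, rfl⟩; exact hx.imp fun x h => ⟨h i, h⟩)
      (by rintro _ ⟨i, rfl⟩; simp only [hl]; exact existsUnique_eq) (fun i => (hl _ _ _).2 rfl)
      fun u hu => by rw [hu.2.1, mul_one],
    Finset.sum_const, Finset.card_univ, Fintype.card_perm, hc, Fintype.card_sum, Fintype.card_fin,
    Fintype.card_fin, Nat.add_sub_cancel_left, nsmul_eq_mul, Nat.cast_mul]
  ring

/-- the positions of the top block on the first wall -/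
def emb (n : ℕ) (j : Fin k) : Fin (n + 2) ↪ Col n k :=
  ⟨Fin.cons (Sum.inr j) Sum.inl, Fin.cons_injective_iff.2 ⟨by simp, Sum.inl_injective⟩⟩

theorem emb_succ (j : Fin k) (i : Fin (n + 1)) : emb n j i.succ = Sum.inl i := rfl

theorem blk_first {j : Fin k} (hj : (j : ℕ) = 0) {q : Col n k} :
    blk {j} q = ∅ ↔ q ∈ range (emb n j) := by
  rcases q with i | i
  · exact ⟨fun _ => ⟨i.succ, rfl⟩, fun _ => rfl⟩
  · refine ⟨fun h => ⟨0, congrArg Sum.inr ?_⟩, fun ⟨r, h⟩ => ?_⟩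
    · exact (Finset.mem_singleton.1 (Finset.sdiff_eq_empty_iff_subset.1 h
        (Finset.mem_Iic.2 le_rfl))).symm
    · refine Finset.sdiff_eq_empty_iff_subset.2 fun a ha => Finset.mem_singleton.2 (Fin.ext ?_)
      have h1 : (a : ℕ) ≤ i := Fin.le_def.1 (Finset.mem_Iic.1 ha)
      have h2 : j = i := by
        induction r using Fin.cases with
        | zero => exact Sum.inr_injective h
        | succ r => cases h
      subst h2
      omega

theorem blk_first_inj {j : Fin k} (hj : (j : ℕ) = 0) {q q' : Col n k} (hq : q ∉ range (emb n j))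
    (h : blk {j} q' = blk {j} q) : q' = q := by
  have hq' : q' ∉ range (emb n j) := fun h' => hq ((blk_first hj).1 (h ▸ (blk_first hj).2 h'))
  have key : ∀ i i' : Fin k, Sum.inr i ∉ range (emb n j) →
      blk {j} (Sum.inr i : Col n k) = blk {j} (Sum.inr i' : Col n k) → i ≤ i' := fun i i' hi e => by
    have h1 : i ∈ blk {j} (Sum.inr i : Col n k) := Finset.mem_sdiff.2 ⟨Finset.mem_Iic.2 le_rfl,
      fun h2 => hi ⟨0, congrArg Sum.inr (Finset.mem_singleton.1 h2).symm⟩⟩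
    exact Finset.mem_Iic.1 (Finset.mem_sdiff.1 (e ▸ h1 : i ∈ blk {j} (Sum.inr i' : Col n k))).1
  rcases q with i | i
  · exact absurd ⟨i.succ, rfl⟩ hq
  rcases q' with i' | i'
  · exact absurd ⟨i'.succ, rfl⟩ hq'
  exact congrArg Sum.inr (le_antisymm (key _ _ hq' h) (key _ _ hq h.symm))

theorem blk_via {j : Fin k} (hj : (j : ℕ) = 0) (ρ : Equiv.Perm (Fin (n + 2))) (q : Col n k) :
    blk {j} (ρ.viaFintypeEmbedding (emb n j) q) = blk {j} q := by
  by_cases hq : q ∈ range (emb n j)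
  · obtain ⟨r, rfl⟩ := hq
    rw [Equiv.Perm.viaFintypeEmbedding_apply_image, (blk_first hj).2 ⟨_, rfl⟩,
      (blk_first hj).2 ⟨_, rfl⟩]
  · rw [Equiv.Perm.viaFintypeEmbedding_apply_notMem_range _ _ hq]

theorem exists_via {j : Fin k} (hj : (j : ℕ) = 0) {π : Equiv.Perm (Col n k)}
    (h : ∀ q, blk {j} (π q) = blk {j} q) :
    ∃ ρ : Equiv.Perm (Fin (n + 2)), π = ρ.viaFintypeEmbedding (emb n j) := by
  choose f hf using fun r => (blk_first hj).1 ((h (emb n j r)).trans ((blk_first hj).2 ⟨r, rfl⟩))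
  have hi : Function.Injective f := fun r r' e =>
    (emb n j).injective (π.injective (by rw [← hf, ← hf, e]))
  refine ⟨Equiv.ofBijective f (Finite.injective_iff_bijective.1 hi), Equiv.ext fun q => ?_⟩
  by_cases hq : q ∈ range (emb n j)
  · obtain ⟨r, rfl⟩ := hq
    rw [Equiv.Perm.viaFintypeEmbedding_apply_image, ← hf]
    rfl
  · rw [Equiv.Perm.viaFintypeEmbedding_apply_notMem_range _ _ hq]
    exact blk_first_inj hj hq (h q)

/-- the signed count of a class on the first wall vanishes (cocycle identity) -/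
theorem sum_first {j : Fin k} (hj : (j : ℕ) = 0) (u : d.U) (hu : (d.X {j} u.1).Nonempty) :
    ∑ᶠ u' ∈ {u' : d.U | d.Rel {j} u.1 u'.1}, d.sgn u' = 0 := by
  obtain ⟨x₀, hx₀⟩ := hu
  choose τ hτ hτx using fun r => hx₀ (u.1.pos (emb n j r))
    (by rw [Equiv.symm_apply_apply]; exact (blk_first hj).2 ⟨r, rfl⟩)
  have hX : ∀ v : Sh L n k, (∀ c, blk {j} (u.1.pos.symm c) = blk {j} (v.pos.symm c)) →
      (∀ r, v.lam (u.1.pos (emb n j r)) = some (τ r)) →
      ∀ x, x ∈ d.X {j} v ↔ ∀ r, x ∈ d.O (τ r) := fun v hb hl x => by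
    refine ⟨fun hx r => ?_, fun hx c hc => ?_⟩
    · obtain ⟨y, hy, hxy⟩ := hx (u.1.pos (emb n j r))
        (by rw [← hb, Equiv.symm_apply_apply]; exact (blk_first hj).2 ⟨r, rfl⟩)
      rwa [← Option.some_injective _ (hy.symm.trans (hl r))]
    · obtain ⟨r, hr⟩ := (blk_first hj).1 ((hb c).trans hc)
      exact ⟨_, by rw [← hl r, hr, Equiv.apply_symm_apply], hx r⟩
  have hτB : ∀ r, τ r ∈ d.A {j} u.1 := fun r => ⟨x₀, hτx r, hx₀⟩
  have hp : ∀ (ρ : Equiv.Perm (Fin (n + 2))) i,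
      (u.1.pos * ρ.viaFintypeEmbedding (emb n j)) (Sum.inl i) = u.1.pos (emb n j (ρ i.succ)) :=
    fun ρ i => by
      rw [Equiv.Perm.mul_apply, ← emb_succ j, Equiv.Perm.viaFintypeEmbedding_apply_image]
  have e : {u' : d.U | d.Rel {j} u.1 u'.1} = ⋃ ρ : Equiv.Perm (Fin (n + 2)),
      d.Fib (u.1.pos * ρ.viaFintypeEmbedding (emb n j)) (fun i => τ (ρ i.succ)) (d.A {j} u.1)
        u.1.lam := by
    refine Set.ext fun v => ⟨fun h => mem_iUnion.2 ?_, fun h => ?_⟩
    · obtain ⟨ρ, hρ⟩ := exists_via hj (π := u.1.pos⁻¹ * v.1.pos) fun q => by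
        have := h.blk (v.1.pos q)
        rwa [Equiv.symm_apply_apply] at this
      have h1 : v.1.pos = u.1.pos * ρ.viaFintypeEmbedding (emb n j) := by
        rw [← hρ, mul_inv_cancel_left]
      refine ⟨ρ, h1, funext fun i => Option.some_injective _ ?_, fun c y hy => (h.lam c y hy).symm⟩
      rw [← v.2.sig i, h1, hp]
      exact (h.lam _ _ (hτB _)).1 (hτ _)
    · obtain ⟨ρ, h1, -, h3⟩ := mem_iUnion.1 h
      have hb : ∀ c, blk {j} (u.1.pos.symm c) = blk {j} (v.1.pos.symm c) := fun c => by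
        obtain ⟨q, rfl⟩ := v.1.pos.surjective c
        rw [Equiv.symm_apply_apply, h1, Equiv.Perm.mul_apply, Equiv.symm_apply_apply, blk_via hj]
      exact ⟨hb, Set.ext fun x => (hX _ (fun _ => rfl) hτ x).trans
        (hX _ hb (fun r => (h3 _ _ (hτB r)).2 (hτ r)) x).symm, fun c y hy => (h3 c y hy).symm⟩
  rw [e, finsum_mem_iUnion (fun ρ ρ' h => disjoint_left.2 fun v h1 h2 => h ?_)
    fun ρ => d.finite_Fib _ _ _ _, finsum_eq_sum_of_fintype,
    Finset.sum_congr rfl fun ρ _ => d.sum_Fib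
      (s := ((Equiv.Perm.sign u.1.pos : ℤ) : ℝ) * ((Equiv.Perm.sign ρ : ℤ) : ℝ))
      ⟨x₀, fun _ => hτx _⟩ (fun _ => hτB _)
      (fun y ⟨x, h, h'⟩ => ⟨x, h, fun _ => (hX _ (fun _ => rfl) hτ x).1 h' _⟩)
      (fun y ⟨x, h, h'⟩ => ?_) (fun i => by rw [hp, hτ]) fun v hv => ?_]
  · simp only [mul_assoc, ← Finset.mul_sum, sum_perm_succ d.coc τ, mul_zero]
  · obtain ⟨c, hc⟩ := (u.2.img y).2 ⟨x, h, X_anti (Finset.empty_subset _) _ h'⟩
    exact ⟨c, hc, fun c' hc' => u.2.inj _ _ _ hc' hc⟩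
  · rw [sgn, hv.1, hv.2.1, Equiv.Perm.sign_mul, Equiv.Perm.viaFintypeEmbedding_sign, Units.val_mul,
      Int.cast_mul]
  · have h3 := mul_left_cancel (h1.1.symm.trans h2.1)
    refine Equiv.ext fun r => (emb n j).injective ?_
    rw [← Equiv.Perm.viaFintypeEmbedding_apply_image, h3,
      Equiv.Perm.viaFintypeEmbedding_apply_image]

/-- reordering the positions below the first block -/
def reord (s : Equiv.Perm (Col n k)) (hs : ∀ i, s (Sum.inl i) = Sum.inl i) (u : d.U) : d.U :=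
  have h : ∀ i, (Sh.mk u.1.lam (u.1.pos * s) u.1.sig u.1.cp).lam
      ((Sh.mk u.1.lam (u.1.pos * s) u.1.sig u.1.cp).pos (Sum.inl i)) =
      some ((Sh.mk u.1.lam (u.1.pos * s) u.1.sig u.1.cp).sig i) := fun i => by
    change u.1.lam (u.1.pos (s _)) = _
    rw [hs]
    exact u.2.sig i
  ⟨⟨u.1.lam, u.1.pos * s, u.1.sig, u.1.cp⟩, h,
    u.2.ne.imp fun _ hx => (d.mem_X_empty h).2 ((d.mem_X_empty u.2.sig).1 hx), u.2.inj,
    fun y => by rw [d.A_empty h]; exact (u.2.img y).trans (by rw [d.A_empty u.2.sig]),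
    by rw [d.A_empty h]; have := u.2.cp; rwa [d.A_empty u.2.sig] at this⟩

theorem rel_reord {I : Finset (Fin k)} {s : Equiv.Perm (Col n k)}
    (hs : ∀ i, s (Sum.inl i) = Sum.inl i) (hb : ∀ q, blk I (s q) = blk I q) (u : d.U) :
    d.Rel I u.1 (d.reord s hs u).1 := by
  have h : ∀ c, blk I (u.1.pos.symm c) = blk I ((d.reord s hs u).1.pos.symm c) := fun c => by
    obtain ⟨q, rfl⟩ := (d.reord s hs u).1.pos.surjective c
    rw [Equiv.symm_apply_apply, ← hb q]
    exact congrArg _ (u.1.pos.symm_apply_apply _)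
  refine ⟨h, Set.ext fun x => forall_congr' fun c => ?_, fun _ _ _ => Iff.rfl⟩
  rw [h c]
  rfl

/-- the signed count of a class on another wall vanishes (swap two positions) -/
theorem sum_other {j : Fin k} (hj : (j : ℕ) ≠ 0) (u : d.U) (hu : (d.X {j} u.1).Nonempty) :
    ∑ᶠ u' ∈ {u' : d.U | d.Rel {j} u.1 u'.1}, d.sgn u' = 0 := by
  let j' : Fin k := ⟨j - 1, by omega⟩
  have hne : (Sum.inr j : Col n k) ≠ Sum.inr j' := fun h => by
    have : (j : ℕ) = j - 1 := congrArg Fin.val (Sum.inr_injective h)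
    omega
  let s : Equiv.Perm (Col n k) := Equiv.swap (Sum.inr j) (Sum.inr j')
  have hs : ∀ i, s (Sum.inl i) = Sum.inl i := fun i =>
    Equiv.swap_apply_of_ne_of_ne Sum.inl_ne_inr Sum.inl_ne_inr
  have hb : ∀ q, blk {j} (s q) = blk {j} q := Equiv.apply_swap_eq_self (by
    ext a
    simp only [blk, Finset.mem_sdiff, Finset.mem_Iic, Finset.mem_singleton, Fin.le_def, Fin.ext_iff,
      j']
    omega)
  have inv : Function.Involutive (d.reord s hs) := fun v =>
    Subtype.ext (Sh.ext rfl (by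
      change v.1.pos * s * s = v.1.pos
      rw [mul_assoc, Equiv.swap_mul_self, mul_one]) rfl rfl)
  have hm : MapsTo (d.reord s hs) {u' : d.U | d.Rel {j} u.1 u'.1} {u' : d.U | d.Rel {j} u.1 u'.1} :=
    fun v hv => (rel_equiv _).trans hv (d.rel_reord hs hb v)
  have h := finsum_mem_eq_of_bijOn (f := d.sgn) (g := fun v => -d.sgn v) _
    (InvOn.bijOn ⟨fun v _ => inv v, fun v _ => inv v⟩ hm hm)
    fun v _ => by
      change _ = -(_ * ((Equiv.Perm.sign (v.1.pos * s) : ℤ) : ℝ))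
      rw [Equiv.Perm.sign_mul, Equiv.Perm.sign_swap hne]
      simp only [sgn, mul_neg, mul_one, Units.val_neg, Int.cast_neg, neg_neg]
      rfl
  simp only [finsum_neg_distrib] at h
  linarith

/-- admissible pairings along the wall `I` -/
structure IsP (I : JJ k) (Λ : Equiv.Perm d.U) : Prop where
  sq : Λ * Λ = 1
  eqv : ∀ (g : Γ) u, Λ (g • u) = g • Λ u
  rel : ∀ u, d.Rel I.1 u.1 (Λ u).1
  sgn : ∀ u, (d.X I.1 u.1).Nonempty → d.sgn (Λ u) = -d.sgn u
  fix : ∀ u, ¬ (d.X I.1 u.1).Nonempty → Λ u = u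

theorem exists_isP (I : JJ k) : ∃ Λ, d.IsP I Λ := by
  obtain ⟨j, hj⟩ := I.2
  have hs : ({j} : Finset (Fin k)) ⊆ I.1 := Finset.singleton_subset_iff.2 hj
  have hne : ∀ u : d.U, (d.X I.1 u.1).Nonempty → (d.X {j} u.1).Nonempty := fun u h =>
    h.mono (X_anti hs _)
  obtain ⟨Λ, h1, h2, h3, h4, h5⟩ := exists_inv (U := d.U) d.χ (fun u u' => d.Rel {j} u.1 u'.1)
    ⟨fun u => (rel_equiv _).refl _, fun r => (rel_equiv _).symm r,
      fun r r' => (rel_equiv _).trans r r'⟩
    (fun g u u' r => r.smul g) (fun u => (d.X I.1 u.1).Nonempty)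
    (fun u u' r h => (r.mono hs).X ▸ h) (fun g u h => nonempty_X_smul h g)
    (fun g u h r => u.2.free (hne u h) r) d.sgn d.sgn_eq d.sgn_smul
    (fun u h => d.finite_rel u (hne u h))
    (fun u h => by
      by_cases h0 : (j : ℕ) = 0
      · exact d.sum_first h0 u (hne u h)
      · exact d.sum_other h0 u (hne u h))
  exact ⟨Λ, h1, h2, fun u => (h3 u).mono hs, h4, h5⟩

theorem finite_isP (I : JJ k) : {Λ | d.IsP I Λ}.Finite := by
  have hR := d.finite_sig d.reps.finite_toSet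
  have := hR.to_subtype
  have hC : ∀ u : d.U, {u' : d.U | d.Rel I.1 u.1 u'.1 ∧
      (¬ (d.X I.1 u.1).Nonempty → u' = u)}.Finite := fun u => by
    by_cases h : (d.X I.1 u.1).Nonempty
    · exact (d.finite_rel u h).subset fun _ h' => h'.1
    · exact (finite_singleton u).subset fun _ h' => h'.2 h
  refine Set.Finite.of_finite_image
    (f := fun (Λ : Equiv.Perm d.U) (u : {u : d.U | u.1.sig 0 ∈ (d.reps : Set L)}) => Λ u)
    ((Set.Finite.pi' fun u : {u : d.U | u.1.sig 0 ∈ (d.reps : Set L)} => hC u).subset ?_) ?_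
  · rintro _ ⟨Λ, hΛ, rfl⟩ u
    exact ⟨hΛ.rel u, hΛ.fix u⟩
  · intro Λ hΛ Λ' hΛ' e
    refine Equiv.ext fun u => ?_
    obtain ⟨g, hg⟩ := d.cover (u.1.sig 0)
    have h1 : Λ (g • u) = Λ' (g • u) := congrFun e ⟨g • u, hg⟩
    rw [hΛ.eqv, hΛ'.eqv] at h1
    exact MulAction.injective g h1

theorem IsP.apply_apply {d : Dat Γ T L n k} {I : JJ k} {Λ : Equiv.Perm d.U} (h : d.IsP I Λ)
    (u : d.U) : Λ (Λ u) = u := by
  rw [← Equiv.Perm.mul_apply, h.sq, Equiv.Perm.one_apply]

theorem IsP.mul_mul {d : Dat Γ T L n k} {I : JJ k} {Λ : Equiv.Perm d.U} (h : d.IsP I Λ)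
    (M : Equiv.Perm d.U) : Λ * (Λ * M) = M := by
  rw [← mul_assoc, h.sq, one_mul]

theorem IsP.conj {d : Dat Γ T L n k} {I K : JJ k} (h : I ≤ K) {Λ Λ' : Equiv.Perm d.U}
    (hI : d.IsP I Λ) (hK : d.IsP K Λ') : d.IsP K (Λ * Λ' * Λ) := by
  have hs : I.1 ⊆ K.1 := h
  have r1 : ∀ u, d.X K.1 u.1 = d.X K.1 (Λ u).1 := fun u => ((hI.rel u).mono hs).X
  refine ⟨by simp only [mul_assoc, hI.mul_mul, hK.mul_mul, hI.sq], fun g u => ?_, fun u => ?_,
    fun u hu => ?_, fun u hu => ?_⟩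
  · simp only [Equiv.Perm.mul_apply, hI.eqv, hK.eqv]
  · exact (rel_equiv _).trans ((hI.rel u).mono hs)
      ((rel_equiv _).trans (hK.rel _) ((hI.rel _).mono hs))
  · have h1 : (d.X K.1 (Λ u).1).Nonempty := r1 u ▸ hu
    have h2 : (d.X K.1 (Λ' (Λ u)).1).Nonempty := (hK.rel _).X ▸ h1
    rw [Equiv.Perm.mul_apply, Equiv.Perm.mul_apply, hI.sgn _ (h2.mono (X_anti hs _)), hK.sgn _ h1,
      hI.sgn _ (hu.mono (X_anti hs _)), neg_neg]
  · rw [Equiv.Perm.mul_apply, Equiv.Perm.mul_apply, hK.fix _ (r1 u ▸ hu), hI.apply_apply]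

/-- a choice of a pairing for every wall -/
def LL : Type := ∀ I : JJ k, {Λ : Equiv.Perm d.U // d.IsP I Λ}

instance : Finite d.LL := by
  have := fun I => (d.finite_isP I).to_subtype
  exact inferInstanceAs (Finite (∀ I : JJ k, {Λ | d.IsP I Λ}))

instance : Nonempty d.LL := by
  exact ⟨fun I => ⟨_, (d.exists_isP I).choose_spec⟩⟩

/-- the sheets of the resolution -/
@[ext] structure VV where
  u : d.U
  l : d.LL

instance : MulAction Γ d.VV where
  smul g v := ⟨g • v.u, v.l⟩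
  one_smul v := VV.ext (one_smul _ _) rfl
  mul_smul a b v := VV.ext (mul_smul a b _) rfl



open Classical in
/-- the involution of the wall `I` -/
def flip (I : JJ k) (v : d.VV) : d.VV :=
  ⟨(v.l I).1 v.u, fun K => if h : I < K then
    ⟨(v.l I).1 * (v.l K).1 * (v.l I).1, IsP.conj h.le (v.l I).2 (v.l K).2⟩ else v.l K⟩

theorem flip_u (I : JJ k) (v : d.VV) : (d.flip I v).u = (v.l I).1 v.u := rfl

theorem flip_l_of_lt {I K : JJ k} (h : I < K) (v : d.VV) :
    ((d.flip I v).l K).1 = (v.l I).1 * (v.l K).1 * (v.l I).1 := by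
  simp only [flip, dif_pos h]

theorem flip_l_of_not {I K : JJ k} (h : ¬ I < K) (v : d.VV) : (d.flip I v).l K = v.l K := by
  simp only [flip, dif_neg h]

theorem flip_flip (I : JJ k) : Function.Involutive (d.flip I) := by
  intro v
  refine VV.ext ?_ (funext fun K => Subtype.ext ?_)
  · rw [flip_u, flip_l_of_not _ (lt_irrefl I), flip_u, (v.l I).2.apply_apply]
  · by_cases h : I < K
    · rw [flip_l_of_lt _ h, flip_l_of_lt _ h, flip_l_of_not _ (lt_irrefl I)]
      simp only [mul_assoc, (v.l I).2.mul_mul, (v.l I).2.sq, mul_one]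
    · rw [flip_l_of_not _ h, flip_l_of_not _ h]

theorem flip_comm {I K : JJ k} (h : I ≤ K) (v : d.VV) :
    d.flip I (d.flip K v) = d.flip K (d.flip I v) := by
  rcases h.eq_or_lt with rfl | h
  · rfl
  refine VV.ext ?_ (funext fun M => Subtype.ext ?_)
  · rw [flip_u, flip_u, flip_u, flip_u, flip_l_of_not _ h.not_gt, flip_l_of_lt _ h,
      Equiv.Perm.mul_apply, Equiv.Perm.mul_apply, (v.l I).2.apply_apply]
  · by_cases hM : K < M
    · rw [flip_l_of_lt _ (h.trans hM), flip_l_of_lt _ hM, flip_l_of_lt _ hM,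
        flip_l_of_not _ h.not_gt, flip_l_of_lt _ h, flip_l_of_lt _ (h.trans hM)]
      simp only [mul_assoc, (v.l I).2.mul_mul]
    · rw [flip_l_of_not _ hM]
      by_cases hI : I < M
      · rw [flip_l_of_lt _ hI, flip_l_of_lt _ hI, flip_l_of_not _ h.not_gt, flip_l_of_not _ hM]
      · rw [flip_l_of_not _ hI, flip_l_of_not _ hI, flip_l_of_not _ hM]

/-- `VV` is a product -/
def eVV : d.VV ≃ d.U × d.LL := ⟨fun v => (v.u, v.l), fun p => ⟨p.1, p.2⟩, fun _ => rfl, fun _ => rfl⟩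

theorem finite_VV {S : Set d.U} (hS : S.Finite) : {v : d.VV | v.u ∈ S}.Finite :=
  ((hS.prod (finite_univ (α := d.LL))).preimage d.eVV.injective.injOn).subset
    fun _ hv => ⟨hv, mem_univ _⟩

theorem exists_reps : ∃ R : Finset d.VV, (∀ v, ∃ g : Γ, g • v ∈ R) ∧
    ∀ v ∈ R, ∀ g : Γ, g • v ∈ R → g = 1 := by
  obtain ⟨p, hp, hp'⟩ : ∃ p : L → L, (∀ y, ∃ g : Γ, g • y = p y) ∧ ∀ (g : Γ) y, p (g • y) = p y :=
    ⟨fun b => (Quotient.mk (MulAction.orbitRel Γ L) b).out,
      fun b => Quotient.mk_out (s := MulAction.orbitRel Γ L) b,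
      fun g b => congrArg Quotient.out (Quotient.sound (s := MulAction.orbitRel Γ L) ⟨g, rfl⟩)⟩
  choose γ hγ using d.cover
  have hf := d.finite_VV ((d.finite_sig d.reps.finite_toSet).subset
    (s := _) (t := {u : d.U | u.1.sig 0 = γ (p (u.1.sig 0)) • p (u.1.sig 0)}) fun u hu => by
      have hu' : u.1.sig 0 = _ := hu
      change u.1.sig 0 ∈ d.reps
      rw [hu']
      exact hγ _)
  refine ⟨hf.toFinset, fun v => ?_, fun v hv g hg => ?_⟩
  · obtain ⟨g, hg⟩ := hp (v.u.1.sig 0)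
    refine ⟨γ (p (v.u.1.sig 0)) * g, hf.mem_toFinset.2 ?_⟩
    change (γ (p (v.u.1.sig 0)) * g) • v.u.1.sig 0 = γ (p ((γ (p (v.u.1.sig 0)) * g) • v.u.1.sig 0))
      • p ((γ (p (v.u.1.sig 0)) * g) • v.u.1.sig 0)
    rw [hp', mul_smul, hg]
  · have h1 : v.u.1.sig 0 = γ (p (v.u.1.sig 0)) • p (v.u.1.sig 0) := hf.mem_toFinset.1 hv
    have h2 : g • v.u.1.sig 0 = γ (p (g • v.u.1.sig 0)) • p (g • v.u.1.sig 0) :=
      hf.mem_toFinset.1 hg
    rw [hp', ← h1] at h2
    exact d.free g _ h2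

/-- the gluing data -/
def gl : Gl Γ d.VV k where
  Φ I := (d.flip_flip I).toPerm
  sq I := Equiv.ext fun v => d.flip_flip I v
  comm _ _ h := Equiv.ext fun v => d.flip_comm h v
  eqv I g v := VV.ext ((v.l I).2.eqv g v.u) rfl
  reps := d.exists_reps.choose
  cover := d.exists_reps.choose_spec.1
  uniq := d.exists_reps.choose_spec.2


/-- sums over `VV` of functions of the sheet -/
theorem finsum_VV (f : d.U → ℝ) (hf : (Function.support f).Finite) :
    ∑ᶠ v : d.VV, f v.u = Nat.card d.LL * ∑ᶠ u, f u := by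
  have := Fintype.ofFinite d.LL
  have h1 : ∑ᶠ v : d.VV, f v.u = ∑ᶠ p : d.U × d.LL, f p.1 :=
    finsum_comp_equiv d.eVV (f := fun p : d.U × d.LL => f p.1)
  rw [h1, finsum_curry (fun p : d.U × d.LL => f p.1)
    ((hf.prod (finite_univ (α := d.LL))).subset fun p hp => ⟨hp, mem_univ _⟩), mul_finsum]
  refine finsum_congr fun u => ?_
  rw [finsum_eq_sum_of_fintype]
  simp only [Finset.sum_const, nsmul_eq_mul, Nat.card_eq_fintype_card, Finset.card_univ]

end Dat

end Crest.Agent.N222.C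
end
private theorem rz_cd7b5c5586 : type_of% @_root_.Crest.Agent.N222.C.blk.eq_1 := @_root_.Crest.Agent.N222.C.blk.eq_1 -- L69
end

-- ▼ part N222/C/Geo
section

/-!
# Row 222, part C: the map `G`, its domain `ZZ` and the closed core `KC`
-/

set_option autoImplicit false

open Set Filter Topology
open scoped symmDiff

noncomputable section

namespace Crest.Agent.N222.C

variable {Γ T L : Type} [Group Γ] [MulAction Γ T] [MulAction Γ L] {n k : ℕ}

open Classical in
/-- the vanishing gaps -/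
def Za (η : KK k → ℝ) : Finset (Fin k) := Finset.univ.filter fun j => aa η j = 0

/-- the height of the colour `c` -/
def eta (u : Sh L n k) (η : KK k → ℝ) (c : Col n k) : ℝ :=
  η none - ∑ j ∈ blk ∅ (u.pos.symm c), aa η j

/-- the scaling constant `1 / δ = 4 D` -/
def MM (n k : ℕ) : ℝ := 4 * ((n : ℝ) + 1 + k)

/-- the part of `G` which does not depend on `t` -/
def Gf (u : Sh L n k) (η : KK k → ℝ) : TT n k → ℝ :=
  Sum.elim (fun c => -(MM n k * eta u η c)) fun K => MM n k * ee η K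

/-- the labelling of the coordinates of the target -/
def lab (u : Sh L n k) : TT n k → Option L := Sum.elim u.lam fun _ => none

/-- the map of one sheet -/
def Gs (u : Sh L n k) (t : L → ℝ) (η : KK k → ℝ) : TT n k → ℝ :=
  fun c => MM n k * (lab u c).elim 0 t + Gf u η c

/-- the closed condition -/
structure Kc (F : L → Set T) (x : T) (u : Sh L n k) (η : KK k → ℝ) : Prop where
  e : ∀ K, |ee η K| ≤ (MM n k)⁻¹
  m : 3 * (MM n k)⁻¹ ≤ η none
  m' : η none ≤ 1 + (MM n k)⁻¹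
  lo : ∀ c, -(MM n k)⁻¹ ≤ eta u η c
  act : ∀ c, eta u η c ≤ (MM n k)⁻¹ ∨ ∃ y, u.lam c = some y ∧ x ∈ F y

theorem four_le_MM (n k : ℕ) : 4 ≤ MM n k := by
  have h1 : (0 : ℝ) ≤ n := Nat.cast_nonneg n
  have h2 : (0 : ℝ) ≤ k := Nat.cast_nonneg k
  unfold MM
  linarith

theorem MM_pos (n k : ℕ) : 0 < MM n k := lt_of_lt_of_le (by norm_num) (four_le_MM n k)

theorem MM_inv_le (n k : ℕ) : (MM n k)⁻¹ ≤ 1 / 4 := by
  rw [one_div]
  exact inv_anti₀ (by norm_num) (four_le_MM n k)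

theorem mem_Za {η : KK k → ℝ} {j : Fin k} : j ∈ Za η ↔ aa η j = 0 := by simp [Za]

theorem sub_Za {η : KK k → ℝ} {I : JJ k} (h : |η (some I)| ≤ 1) : I.1 ⊆ Za η :=
  fun _ hj => mem_Za.2 (aa_eq_zero h hj)

theorem contDiff_eta (u : Sh L n k) (c : Col n k) :
    ContDiff ℝ (⊤ : ℕ∞) fun η => eta u η c :=
  (contDiff_apply ℝ ℝ none).sub (ContDiff.sum fun j _ => contDiff_aa j)

theorem eta_flp (u : Sh L n k) (g : Finset (JJ k)) (η : KK k → ℝ) :
    eta u (flp g η) = eta u η := by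
  funext c
  simp only [eta, aa_flp]
  rfl

theorem eta_le (u : Sh L n k) (η : KK k → ℝ) (c : Col n k) : eta u η c ≤ η none :=
  sub_le_self _ (Finset.sum_nonneg fun j _ => aa_nonneg η j)

theorem eta_eq (u : Sh L n k) (η : KK k → ℝ) (c : Col n k) :
    eta u η c = η none - ∑ j ∈ blk (Za η) (u.pos.symm c), aa η j := by
  unfold eta
  congr 1
  rcases u.pos.symm c with i | i
  · rfl
  · refine (Finset.sum_subset (Finset.sdiff_subset_sdiff subset_rfl (Finset.empty_subset _))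
      fun j h1 h2 => mem_Za.1 ?_).symm
    by_contra h3
    exact h2 (Finset.mem_sdiff.2 ⟨(Finset.mem_sdiff.1 h1).1, h3⟩)

theorem eta_top (u : Sh L n k) (η : KK k → ℝ) (i : Fin (n + 1)) :
    eta u η (u.pos (Sum.inl i)) = η none := by
  simp [eta, blk]

theorem contDiff_Gf (u : Sh L n k) : ContDiff ℝ (⊤ : ℕ∞) (Gf u) := by
  refine contDiff_pi.2 fun c => ?_
  rcases c with c | K
  · exact (contDiff_const.mul (contDiff_eta u c)).neg
  · exact contDiff_const.mul (contDiff_ee K)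

theorem Gf_flp (u : Sh L n k) (g : Finset (JJ k)) (η : KK k → ℝ) : Gf u (flp g η) = Gf u η := by
  simp only [Gf, eta_flp, ee_flp]


theorem kc_flp {F : L → Set T} {x : T} {u : Sh L n k} {η : KK k → ℝ} (g : Finset (JJ k)) :
    Kc F x u (flp g η) ↔ Kc F x u η := by
  constructor
  · rintro ⟨h1, h2, h3, h4, h5⟩
    rw [ee_flp] at h1
    rw [eta_flp] at h4 h5
    exact ⟨h1, h2, h3, h4, h5⟩
  · rintro ⟨h1, h2, h3, h4, h5⟩
    exact ⟨by rwa [ee_flp], h2, h3, by rwa [eta_flp], by rwa [eta_flp]⟩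

theorem Gs_smul (g : Γ) (u : Sh L n k) (t : L → ℝ) (η : KK k → ℝ) :
    Gs (g • u) (fun y => t (g⁻¹ • y)) η = Gs u t η := by
  funext c
  have h : (lab (g • u) c).elim 0 (fun y => t (g⁻¹ • y)) = (lab u c).elim 0 t := by
    rcases c with c | K
    · change ((u.lam c).map (g • ·)).elim 0 (fun y => t (g⁻¹ • y)) = (u.lam c).elim 0 t
      cases u.lam c <;> simp
    · rfl
  unfold Gs
  rw [h]
  rfl

/-- `Gs` is affine in `t` -/
theorem Gs_sum {ι : Type} [Fintype ι] (u : Sh L n k) {b : ι → ℝ} (hb : ∑ i, b i = 1)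
    (t : ι → L → ℝ) (η : KK k → ℝ) :
    ∑ i, b i • Gs u (t i) η = Gs u (fun y => ∑ i, b i * t i y) η := by
  funext c
  simp only [Finset.sum_apply, Pi.smul_apply, smul_eq_mul, Gs, mul_add, Finset.sum_add_distrib,
    ← Finset.sum_mul, hb, one_mul]
  congr 1
  cases lab u c with
  | none => simp
  | some y => simp [Finset.mul_sum, mul_left_comm]

theorem Kc.mem_UU {F : L → Set T} {x : T} {u : Sh L n k} {η : KK k → ℝ} (h : Kc F x u η) :
    η ∈ UU k :=
  mem_UU_of_ee fun K => (h.e K).trans (MM_inv_le n k)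

theorem Kc.aa_le {F : L → Set T} {x : T} {u : Sh L n k} {η : KK k → ℝ} (h : Kc F x u η)
    (j : Fin k) : aa η j ≤ 2 := by
  have h1 := h.lo (u.pos (Sum.inr j))
  have h2 := h.m'
  have h3 := MM_inv_le n k
  have h4 : aa η j ≤ ∑ i ∈ blk ∅ (Sum.inr j : Col n k), aa η i :=
    Finset.single_le_sum (fun i _ => aa_nonneg η i) (by simp [blk])
  rw [eta, Equiv.symm_apply_apply] at h1
  linarith

/-- convexity of `Prob` -/
theorem convex_prob {R : L → Set T} {x : T} (h : {y | x ∈ R y}.Finite) :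
    Convex ℝ {t : L → ℝ | Prob R x t} := by
  intro t ht t' ht' a b ha hb hab
  have f1 : Function.HasFiniteSupport t := h.subset ht.supp
  have f2 : Function.HasFiniteSupport t' := h.subset ht'.supp
  refine ⟨fun y => add_nonneg (mul_nonneg ha (ht.nn y)) (mul_nonneg hb (ht'.nn y)),
    fun y hy => ?_, ?_⟩
  · by_contra hn
    have e1 : t y = 0 := by_contra fun h0 => hn (ht.supp y h0)
    have e2 : t' y = 0 := by_contra fun h0 => hn (ht'.supp y h0)
    exact hy (by simp [e1, e2])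
  · change ∑ᶠ y, (a * t y + b * t' y) = 1
    rw [finsum_add_distrib (f1.subset (Function.support_mul_subset_right _ _))
      (f2.subset (Function.support_mul_subset_right _ _)), ← mul_finsum, ← mul_finsum, ht.sum,
      ht'.sum, mul_one, mul_one, hab]

open Classical in
theorem prob_single {R : L → Set T} {x : T} {y : L} (h : x ∈ R y) :
    Prob R x (Pi.single y 1) := by
  refine ⟨fun z => ?_, fun z hz => ?_, ?_⟩
  · rw [Pi.single_apply]
    split_ifs
    exacts [zero_le_one, le_rfl]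
  · by_contra hn
    exact hz (Pi.single_eq_of_ne (fun e : z = y => hn (e ▸ h)) _)
  · rw [finsum_eq_single _ y fun z hz => Pi.single_eq_of_ne hz _, Pi.single_eq_same]

theorem convex_Gs {R : L → Set T} {x : T} (h : {y | x ∈ R y}.Finite) (u : Sh L n k)
    (η : KK k → ℝ) : Convex ℝ {z | ∃ t, Prob R x t ∧ z = Gs u t η} := by
  rintro _ ⟨t, ht, rfl⟩ _ ⟨t', ht', rfl⟩ a b ha hb hab
  refine ⟨_, convex_prob h ht ht' ha hb hab, ?_⟩
  have := Gs_sum u (b := ![a, b]) (by simpa using hab) ![t, t'] η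
  simp only [Fin.sum_univ_two, Matrix.cons_val_zero, Matrix.cons_val_one] at this
  exact this

theorem Prob.finite {R : L → Set T} {x : T} {t : L → ℝ} (h : Prob R x t) :
    Function.HasFiniteSupport t := by
  by_contra hn
  have := h.sum
  rw [finsum_of_infinite_support hn] at this
  exact zero_ne_one this

theorem Prob.le_one {R : L → Set T} {x : T} {t : L → ℝ} (h : Prob R x t) (y : L) : t y ≤ 1 :=
  h.sum ▸ single_le_finsum y h.finite h.nn

theorem elim_congr {o o' : Option L} {t : L → ℝ}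
    (h : ∀ y, t y ≠ 0 → (o = some y ↔ o' = some y)) : o.elim 0 t = o'.elim 0 t := by
  have key : ∀ {o o' : Option L}, (∀ y, t y ≠ 0 → o = some y → o' = some y) →
      o.elim 0 t ≠ 0 → o.elim 0 t = o'.elim 0 t := fun {o o'} h h0 => by
    cases o with
    | none => exact absurd rfl h0
    | some y => rw [h y h0 rfl]
  by_cases h1 : o.elim 0 t = 0
  · by_cases h2 : o'.elim 0 t = 0
    · rw [h1, h2]
    · exact (key (fun y hy => (h y hy).2) h2).symm
  · exact key (fun y hy => (h y hy).1) h1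

theorem isClosed_kc [TopologicalSpace T] {F : L → Set T} (hc : ∀ y, IsClosed (F y))
    (u : Sh L n k) : IsClosed {z : T × (KK k → ℝ) | Kc F z.1 u z.2} := by
  have c0 : Continuous fun z : T × (KK k → ℝ) => z.2 none := (continuous_apply none).comp
    continuous_snd
  have c1 : ∀ c, Continuous fun z : T × (KK k → ℝ) => eta u z.2 c := fun c =>
    (contDiff_eta u c).continuous.comp continuous_snd
  have h1 : IsClosed {z : T × (KK k → ℝ) | ∀ K, |ee z.2 K| ≤ (MM n k)⁻¹} := by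
    rw [ofPred_forall]
    exact isClosed_iInter fun K => isClosed_le
      ((contDiff_ee K).continuous.comp continuous_snd).abs continuous_const
  have h4 : IsClosed {z : T × (KK k → ℝ) | ∀ c, -(MM n k)⁻¹ ≤ eta u z.2 c} := by
    rw [ofPred_forall]
    exact isClosed_iInter fun c => isClosed_le continuous_const (c1 c)
  have h5 : IsClosed {z : T × (KK k → ℝ) | ∀ c, eta u z.2 c ≤ (MM n k)⁻¹ ∨
      ∃ y, u.lam c = some y ∧ z.1 ∈ F y} := by
    rw [ofPred_forall]
    refine isClosed_iInter fun c => (isClosed_le (c1 c) continuous_const).union ?_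
    change IsClosed {z : T × (KK k → ℝ) | ∃ y, u.lam c = some y ∧ z.1 ∈ F y}
    cases u.lam c with
    | none => simp
    | some y =>
      simp only [Option.some.injEq, exists_eq_left']
      exact (hc y).preimage continuous_fst
  convert h1.inter ((isClosed_le continuous_const c0 (f := fun _ => 3 * (MM n k)⁻¹)).inter
    ((isClosed_le c0 continuous_const (g := fun _ => 1 + (MM n k)⁻¹)).inter (h4.inter h5))) using 1
  ext z
  exact ⟨fun h => ⟨h.e, h.m, h.m', h.lo, h.act⟩, fun h => ⟨h.1, h.2.1, h.2.2.1, h.2.2.2.1, h.2.2.2.2⟩⟩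

namespace Dat

variable (d : Dat Γ T L n k)

theorem Rel.eta_eq {d : Dat Γ T L n k} {η : KK k → ℝ} {u u' : Sh L n k} (r : d.Rel (Za η) u u') :
    eta u η = eta u' η := funext fun c => by
  rw [C.eta_eq, C.eta_eq, r.blk]

theorem Rel.Gf_eq {d : Dat Γ T L n k} {η : KK k → ℝ} {u u' : Sh L n k} (r : d.Rel (Za η) u u') :
    Gf u η = Gf u' η := by
  simp only [Gf, r.eta_eq]

theorem Rel.Gs_eq {d : Dat Γ T L n k} {η : KK k → ℝ} {u u' : Sh L n k} (r : d.Rel (Za η) u u')
    {t : L → ℝ} (ht : ∀ y, t y ≠ 0 → y ∈ d.A (Za η) u) : Gs u t η = Gs u' t η := by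
  funext c
  unfold Gs
  rw [r.Gf_eq]
  congr 2
  rcases c with c | K
  · exact elim_congr fun y hy => r.lam c y (ht y hy)
  · rfl

/-- closed regions inside the open ones -/
structure Sub (F : L → Set T) : Prop where
  sub : ∀ y, F y ⊆ d.O y
  eqv : ∀ (g : Γ) y x, g • x ∈ F (g • y) ↔ x ∈ F y

variable {d} {F : L → Set T}

theorem Sub.mem_X (hF : d.Sub F) {x : T} {u : Sh L n k} {η : KK k → ℝ} (h : Kc F x u η) :
    x ∈ d.X (Za η) u := by
  intro c hc
  have h1 := eta_eq u η c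
  rw [hc, Finset.sum_empty, sub_zero] at h1
  have h2 := h.m
  have h3 := inv_pos.2 (MM_pos n k)
  obtain ⟨y, hy, hx⟩ := (h.act c).resolve_left (by linarith)
  exact ⟨y, hy, hF.sub y hx⟩

theorem Sub.kc_rel (hF : d.Sub F) {x : T} {u u' : Sh L n k} {η : KK k → ℝ}
    (r : d.Rel (Za η) u u') (h : Kc F x u η) : Kc F x u' η := by
  refine ⟨h.e, h.m, h.m', r.eta_eq ▸ h.lo, fun c => ?_⟩
  rw [← r.eta_eq]
  refine (h.act c).imp_right fun ⟨y, hy, hx⟩ => ⟨y, ?_, hx⟩
  exact (r.lam c y ⟨x, hF.sub y hx, hF.mem_X h⟩).1 hy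

theorem Sub.kc_smul (hF : d.Sub F) {x : T} {u : Sh L n k} {η : KK k → ℝ} (h : Kc F x u η) (g : Γ) :
    Kc F (g • x) (g • u) η := by
  refine ⟨h.e, h.m, h.m', h.lo, fun c => (h.act c).imp_right fun ⟨y, hy, hx⟩ =>
    ⟨g • y, ?_, (hF.eqv g y x).2 hx⟩⟩
  rw [Sh.smul_lam, hy]
  rfl

/-- **properness**: all labels charged by `t` are coloured, so some colour has height `≥ 1/D - δ` -/
theorem kc_of_norm {u : Sh L n k} (hu : d.Valid u) {x : T} {t : L → ℝ} (ht : Prob F x t)
    (hA : ∀ y, x ∈ F y → y ∈ d.A ∅ u) {η : KK k → ℝ} (h : ‖Gs u t η‖ ≤ 1) : Kc F x u η := by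
  classical
  have hM := MM_pos n k
  have hb : ∀ c, |Gs u t η c| ≤ 1 := fun c => (norm_le_pi_norm _ c).trans h
  have h1 : ∀ c, |(u.lam c).elim 0 t - eta u η c| ≤ (MM n k)⁻¹ := fun c => by
    have := hb (Sum.inl c)
    change |MM n k * (u.lam c).elim 0 t + -(MM n k * eta u η c)| ≤ 1 at this
    rw [← sub_eq_add_neg, ← mul_sub, abs_mul, abs_of_pos hM] at this
    rwa [inv_eq_one_div, le_div_iff₀' hM]
  have h2 : ∀ c, 0 ≤ (u.lam c).elim 0 t ∧ (u.lam c).elim 0 t ≤ 1 := fun c => by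
    cases u.lam c with
    | none => exact ⟨le_rfl, zero_le_one⟩
    | some y => exact ⟨ht.nn y, ht.le_one y⟩
  have h3 : ∀ c, (u.lam c).elim 0 t ≤ η none + (MM n k)⁻¹ := fun c => by
    linarith [(abs_le.1 (h1 c)).2, eta_le u η c]
  refine ⟨fun K => ?_, ?_, ?_, fun c => by linarith [(abs_le.1 (h1 c)).2, (h2 c).1], fun c => ?_⟩
  · have := hb (Sum.inr K)
    change |MM n k * 0 + MM n k * ee η K| ≤ 1 at this
    rw [mul_zero, zero_add, abs_mul, abs_of_pos hM] at this
    rwa [inv_eq_one_div, le_div_iff₀' hM]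
  · set S : Finset L := (Finset.univ.image u.lam).eraseNone with hS
    have hS' : ∀ y, y ∈ S ↔ ∃ c, u.lam c = some y := fun y => by simp [hS]
    have h4 := ht.sum
    rw [finsum_eq_sum_of_support_subset t (s := S) fun y hy =>
      (hS' y).2 ((hu.img y).2 (hA y (ht.supp y hy)))] at h4
    have h5 := Finset.sum_le_card_nsmul S t (η none + (MM n k)⁻¹) fun y hy => by
      obtain ⟨c, hc⟩ := (hS' y).1 hy
      have := h3 c
      rwa [hc] at this
    have h6 : (S.card : ℝ) ≤ (n : ℝ) + 1 + k := by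
      have := (Finset.card_eraseNone_le _).trans (Finset.card_image_le (s := Finset.univ)
        (f := u.lam))
      rw [Finset.card_univ, Fintype.card_sum, Fintype.card_fin, Fintype.card_fin] at this
      exact_mod_cast this
    have h7 := (h2 (Sum.inl 0)).1.trans (h3 _)
    rw [h4, nsmul_eq_mul] at h5
    have h8 := h5.trans (mul_le_mul_of_nonneg_right h6 h7)
    have h9 : MM n k * (MM n k)⁻¹ = 1 := mul_inv_cancel₀ hM.ne'
    have h10 : (0 : ℝ) < (n : ℝ) + 1 + k := by positivity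
    refine le_of_mul_le_mul_left ?_ h10
    unfold MM at h8 h9 ⊢
    linarith
  · have := (abs_le.1 (h1 (u.pos (Sum.inl 0)))).1
    rw [eta_top] at this
    linarith [(h2 (u.pos (Sum.inl 0))).2]
  · have := (abs_le.1 (h1 c)).1
    by_cases h0 : (u.lam c).elim 0 t = 0
    · exact Or.inl (by linarith)
    · right
      cases hc : u.lam c with
      | none => exact absurd (by rw [hc]; rfl) h0
      | some y => exact ⟨y, rfl, ht.supp y (by rwa [hc] at h0)⟩

variable (d)

/-- the sheet of a point -/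
def sh (p : d.gl.YY) : Sh L n k := p.1.1.u.1

/-- all sheets through a point of a section agree on the walls -/
theorem rel_sec (g : Finset (JJ k)) (v : d.VV) {η : KK k → ℝ} (h : η ∈ Ug g) :
    d.Rel (Za η) v.u.1 (d.sh (d.gl.sec g v η)) := by
  unfold sh
  rw [d.gl.sec_val g v h.1]
  refine d.gl.ΦS_rel (fun v v' => d.Rel (Za η) v.u.1 v'.u.1)
    ((rel_equiv (Za η)).comap fun v : d.VV => v.u.1) _ (fun I hI w => ?_) v
  exact ((w.l I).2.rel w.u).mono (sub_Za (abs_lt_of_mem h (mem_Ug_neg h.1) hI).le)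

theorem sec_snd (g : Finset (JJ k)) (v : d.VV) {η : KK k → ℝ} (h : η ∈ Ug g) :
    (d.gl.sec g v η).1.2 = η := by
  rw [d.gl.sec_val g v h.1]

/-- the map -/
def GG (t : L → ℝ) (p : d.gl.YY) : TT n k → ℝ := Gs (d.sh p) t p.1.2

/-- the domain -/
def ZZ : Set (T × d.gl.YY) := {z | z.1 ∈ d.X (Za z.2.1.2) (d.sh z.2)}

/-- the core -/
def KC (F : L → Set T) : Set (T × d.gl.YY) := {z | Kc F z.1 (d.sh z.2) z.2.1.2}

theorem GG_smul (g : Γ) (t : L → ℝ) (p : d.gl.YY) :
    d.GG (fun y => t (g⁻¹ • y)) (g • p) = d.GG t p :=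
  Gs_smul g (d.sh p) t p.1.2

theorem mem_ZZ_sec {g : Finset (JJ k)} {v : d.VV} {η : KK k → ℝ} (h : η ∈ Ug g) {x : T} :
    (x, d.gl.sec g v η) ∈ d.ZZ ↔ x ∈ d.X (Za η) v.u.1 := by
  change x ∈ d.X (Za (d.gl.sec g v η).1.2) (d.sh (d.gl.sec g v η)) ↔ _
  rw [d.sec_snd g v h, (d.rel_sec g v h).X]

theorem GG_sec {g : Finset (JJ k)} {v : d.VV} {η : KK k → ℝ} (h : η ∈ Ug g) {x : T}
    (hx : (x, d.gl.sec g v η) ∈ d.ZZ) {t : L → ℝ} (ht : ∀ y, t y ≠ 0 → x ∈ d.O y) :
    d.GG t (d.gl.sec g v η) = Gs v.u.1 t η := by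
  unfold GG
  rw [d.sec_snd g v h]
  exact ((d.rel_sec g v h).Gs_eq fun y hy => ⟨x, ht y hy, (d.mem_ZZ_sec h).1 hx⟩).symm

theorem inv_ZZ : Inv Γ d.ZZ :=
  fun g z hz => (X_smul _ g (d.sh z.2) z.1).2 hz

/-- on a wall which meets the domain the sign changes -/
theorem sgn_wall {g : Finset (JJ k)} {v : d.VV} {η : KK k → ℝ} (h : η ∈ Ug g) {I : JJ k}
    (hI : η (some I) = 0) {x : T} (hx : (x, d.gl.sec g v η) ∈ d.ZZ) :
    d.sgn (d.gl.Φ I v).u = -d.sgn v.u :=
  (v.l I).2.sgn v.u ⟨x, X_anti (sub_Za (by rw [hI, abs_zero]; exact zero_le_one)) _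
    ((d.mem_ZZ_sec h).1 hx)⟩

theorem finite_sec (x : T) :
    {v : d.VV | ∃ g η, η ∈ Ug g ∧ (x, d.gl.sec g v η) ∈ d.ZZ}.Finite :=
  (d.finite_VV (d.finite_X x)).subset fun _ ⟨_, _, h, hx⟩ =>
    X_anti (Finset.empty_subset _) _ ((d.mem_ZZ_sec h).1 hx)

variable {d}

theorem Sub.mem_KC_sec (hF : d.Sub F) {g : Finset (JJ k)} {v : d.VV} {η : KK k → ℝ} (h : η ∈ Ug g)
    {x : T} : (x, d.gl.sec g v η) ∈ d.KC F ↔ Kc F x v.u.1 η := by
  change Kc F x (d.sh (d.gl.sec g v η)) (d.gl.sec g v η).1.2 ↔ _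
  rw [d.sec_snd g v h]
  exact ⟨hF.kc_rel ((rel_equiv _).symm (d.rel_sec g v h)), hF.kc_rel (d.rel_sec g v h)⟩

theorem Sub.KC_sub (hF : d.Sub F) : d.KC F ⊆ d.ZZ :=
  fun _ hz => hF.mem_X hz

theorem Sub.inv_KC (hF : d.Sub F) : Inv Γ (d.KC F) :=
  fun g _ hz => hF.kc_smul hz g

theorem Sub.mem_KC (hF : d.Sub F) {x : T} {p : d.gl.YY} (hz : (x, p) ∈ d.ZZ) {t : L → ℝ}
    (ht : Prob F x t) (h : ‖d.GG t p‖ ≤ 1) : (x, p) ∈ d.KC F :=
  kc_of_norm p.1.1.u.2 ht
    (fun y hy => ⟨x, hF.sub y hy, X_anti (Finset.empty_subset _) _ hz⟩) h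

variable [TopologicalSpace T]

theorem isOpen_X (hO : ∀ y, IsOpen (d.O y)) (I : Finset (Fin k)) (u : Sh L n k) :
    IsOpen (d.X I u) := by
  unfold X
  rw [ofPred_forall]
  refine isOpen_iInter_of_finite fun c => ?_
  rw [ofPred_forall]
  refine isOpen_iInter_of_finite fun _ => ?_
  cases u.lam c with
  | none => simp
  | some y => simpa using hO y

theorem isOpen_ZZ (hO : ∀ y, IsOpen (d.O y)) : IsOpen d.ZZ := by
  refine isOpen_iff_mem_nhds.2 fun z hz => ?_
  have c2 : Continuous fun w : T × d.gl.YY => w.2.1.2 := d.gl.continuous_snd.comp continuous_snd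
  have h1 : ∀ᶠ w : T × d.gl.YY in 𝓝 z, d.gl.In (neg z.2.1.2) z.2.1.1 w.2 :=
    ((d.gl.isOpen_in _ _).preimage continuous_snd).mem_nhds (d.gl.in_self z.2)
  have h2 : ∀ᶠ w : T × d.gl.YY in 𝓝 z, w.1 ∈ d.X (Za z.2.1.2) (d.sh z.2) :=
    ((isOpen_X hO _ _).preimage continuous_fst).mem_nhds hz
  have h3 : ∀ᶠ w : T × d.gl.YY in 𝓝 z, ∀ j, aa w.2.1.2 j = 0 → aa z.2.1.2 j = 0 :=
    eventually_all.2 fun j => by
      by_cases h0 : aa z.2.1.2 j = 0
      · exact .of_forall fun _ _ => h0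
      · filter_upwards [((contDiff_aa j).continuous.comp c2).continuousAt.eventually_ne h0]
          with w hw hw'
        exact absurd hw' hw
  filter_upwards [h1, h2, h3] with w h1 h2 h3
  obtain ⟨h4, h5⟩ := d.gl.in_iff.1 h1
  have h6 := (d.mem_ZZ_sec (v := z.2.1.1) h4).2
    (X_anti (fun j hj => mem_Za.2 (h3 j (mem_Za.1 hj))) _ h2)
  rwa [h5] at h6

theorem Sub.isClosed_KC (hF : d.Sub F) (hc : ∀ y, IsClosed (F y)) : IsClosed (d.KC F) := by
  refine isOpen_compl_iff.1 (isOpen_iff_mem_nhds.2 fun z hz => ?_)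
  have c2 : Continuous fun w : T × d.gl.YY => (w.1, w.2.1.2) :=
    continuous_fst.prodMk (d.gl.continuous_snd.comp continuous_snd)
  have h1 : ∀ᶠ w : T × d.gl.YY in 𝓝 z, d.gl.In (neg z.2.1.2) z.2.1.1 w.2 :=
    ((d.gl.isOpen_in _ _).preimage continuous_snd).mem_nhds (d.gl.in_self z.2)
  have h2 : ∀ᶠ w : T × d.gl.YY in 𝓝 z, ¬ Kc F w.1 (d.sh z.2) w.2.1.2 :=
    ((isClosed_kc hc (d.sh z.2)).isOpen_compl.preimage c2).mem_nhds hz
  filter_upwards [h1, h2] with w h1 h2 hw
  obtain ⟨h4, h5⟩ := d.gl.in_iff.1 h1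
  exact h2 ((hF.mem_KC_sec h4).1 (by rwa [h5]))

theorem Sub.isCompact_KC (hF : d.Sub F) (hc : ∀ y, IsClosed (F y)) {C : Set T} (hC : IsCompact C)
    (hfin : {y | (d.O y ∩ C).Nonempty}.Finite) : IsCompact (d.KC F ∩ C ×ˢ univ) := by
  obtain ⟨B, hB, hB'⟩ := exists_bound k 2
  let S : Finset (JJ k) → Set (KK k → ℝ) := fun g =>
    Metric.closedBall 0 B ∩ (Cg g ∩ {η | ∀ K, |ee η K| ≤ 1 / 4})
  have hS : ∀ g, IsCompact (S g) := fun g => by
    refine (isCompact_closedBall 0 B).inter_right ((isClosed_Cg g).inter ?_)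
    rw [ofPred_forall]
    exact isClosed_iInter fun K => isClosed_le (contDiff_ee K).continuous.abs continuous_const
  have hSU : ∀ g, S g ⊆ Ug g := fun g η hη => mem_Ug_of_Cg (mem_UU_of_ee hη.2.2) hη.2.1
  have hK : IsCompact (⋃ v ∈ {v : d.VV | v.u ∈ {u : d.U | u.1.sig 0 ∈ {y | (d.O y ∩ C).Nonempty}}},
      ⋃ g, d.gl.sec g v '' S g) :=
    (d.finite_VV (d.finite_sig hfin)).isCompact_biUnion fun v _ => isCompact_iUnion fun g =>
      (hS g).image_of_continuousOn ((d.gl.continuousOn_sec g v).mono (hSU g))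
  convert (hC.prod hK).inter_left (hF.isClosed_KC hc) using 1
  refine Set.ext fun z => and_congr_right fun hz => and_congr_right fun hx =>
    iff_of_true trivial ?_
  have hz' : Kc F z.1 (d.sh z.2) z.2.1.2 := hz
  have he : ∀ K, |ee z.2.1.2 K| ≤ 1 / 4 := fun K => (hz'.e K).trans (MM_inv_le n k)
  refine mem_biUnion (x := z.2.1.1) ⟨z.1, ?_, hx⟩ (mem_iUnion.2 ⟨neg z.2.1.2, z.2.1.2,
    ⟨?_, mem_Cg_neg _, he⟩, d.gl.sec_self z.2⟩)
  · exact z.2.1.1.u.2.mem_X.1 (X_anti (Finset.empty_subset _) _ (hF.mem_X hz')) 0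
  · rw [mem_closedBall_zero_iff, pi_norm_le_iff_of_nonneg (by linarith)]
    rintro (_ | K)
    · have h1 := hz'.m
      have h2 := hz'.m'
      have h3 := MM_inv_le n k
      have h4 := inv_pos.2 (MM_pos n k)
      rw [Real.norm_eq_abs, abs_le]
      constructor <;> linarith
    · exact (hB' _ he hz'.aa_le K).le

end Dat

end Crest.Agent.N222.C
end
end

-- ▼ part N222/C/Poly2
section

/-!
# Row 222, part C: surjectivity and infinitesimal injectivity on the open cell
-/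

set_option autoImplicit false

open Set Filter Topology

noncomputable section

namespace Crest.Agent.N222.C

variable {k : ℕ}

namespace P2

theorem hasDerivAt_glue (x : ℝ) : HasDerivAt expNegInvGlue (x⁻¹ ^ 2 * expNegInvGlue x) x := by
  simpa using expNegInvGlue.hasDerivAt_polynomial_eval_inv_mul 1 x

theorem hasDerivAt_ph (x : ℝ) :
    HasDerivAt ph (expNegInvGlue x + x * (x⁻¹ ^ 2 * expNegInvGlue x)) x := by
  have := (hasDerivAt_id' x).fun_mul (hasDerivAt_glue x)
  rwa [one_mul] at this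

theorem ph_of_nonpos {x : ℝ} (hx : x ≤ 0) : ph x = 0 := by
  rw [ph, expNegInvGlue.zero_of_nonpos hx, mul_zero]

theorem ps_of_one_lt {s : ℝ} (hs : 1 < s) : ps s = ph (s - 1) := by
  rw [ps, ph_of_nonpos (x := -s - 1) (by linarith), add_zero]

theorem ps_pos {s : ℝ} (hs : 1 < s) : 0 < ps s := by
  rw [ps_of_one_lt hs]
  exact mul_pos (by linarith) (expNegInvGlue.pos_of_pos (by linarith))

theorem exists_deriv_ps {s : ℝ} (hs : 1 < s) : ∃ d, 0 < d ∧ HasDerivAt ps d s := by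
  have h0 : 0 < s - 1 := by linarith
  have := expNegInvGlue.pos_of_pos h0
  refine ⟨_, ?_, ((hasDerivAt_ph (s - 1)).comp_sub_const s 1).congr_of_eventuallyEq ?_⟩
  · positivity
  · filter_upwards [lt_mem_nhds hs] with t ht using ps_of_one_lt ht

theorem exists_ps {x : ℝ} (hx : 0 < x) : ∃ s, 1 < s ∧ ps s = x := by
  have h1 := expNegInvGlue.pos_of_pos one_pos
  have hc : Continuous ph := continuous_iff_continuousAt.2 fun t => (hasDerivAt_ph t).continuousAt
  obtain ⟨s, -, hs⟩ : x ∈ ph '' Icc 0 (max 1 (x / expNegInvGlue 1)) := by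
    refine intermediate_value_Icc (le_max_of_le_left zero_le_one) hc.continuousOn
      ⟨by rw [ph_of_nonpos le_rfl]; exact hx.le, ?_⟩
    calc x = x / expNegInvGlue 1 * expNegInvGlue 1 := by field_simp
      _ ≤ _ := mul_le_mul (le_max_right _ _) (expNegInvGlue.monotone (le_max_left _ _)) h1.le
        (le_max_of_le_left zero_le_one)
  have h0 : 0 < s := not_le.1 fun h => by rw [ph_of_nonpos h] at hs; exact hx.ne hs
  exact ⟨s + 1, by linarith, by rw [ps_of_one_lt (by linarith), add_sub_cancel_right, hs]⟩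

/-- the affine functions cutting out the polyhedron -/
def el (K : JJ k) (p : Fin k → ℝ) : ℝ := ∑ j ∈ K.1, p j + (K.1.card : ℝ) - (K.1.card : ℝ) ^ 2

theorem el_sing (j : Fin k) (p : Fin k → ℝ) : el (sing j) p = p j := by simp [el, sing]

theorem one_le_card (K : JJ k) : (1 : ℝ) ≤ K.1.card := by exact_mod_cast K.2.card_pos

/-- the entropy -/
def gg (x : ℝ) : ℝ := x * Real.log x - x

theorem gg_add_le {x s : ℝ} (hx : 0 ≤ x) (hs : 0 < s) :
    gg (x + s) - gg x ≤ s * Real.log (x + s) := by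
  rcases hx.eq_or_lt with rfl | hx
  · simp [gg, hs.le]
  · have h := Real.log_le_sub_one_of_pos (div_pos (add_pos hx hs) hx)
    rw [Real.log_div (add_pos hx hs).ne' hx.ne', add_div, div_self hx.ne', add_sub_cancel_left,
      le_div_iff₀ hx] at h
    simp only [gg]
    linarith

theorem le_gg {x c : ℝ} (hx : 0 ≤ x) (hc : 0 < c) : x * Real.log c - c ≤ gg x := by
  rcases hx.eq_or_lt with rfl | hx
  · simp [gg, hc.le]
  · have h := Real.log_le_sub_one_of_pos (div_pos hc hx)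
    rw [Real.log_div hc.ne' hx.ne', le_sub_iff_add_le, le_div_iff₀ hx] at h
    simp only [gg]
    linarith

/-- the convex function -/
def ff (a p : Fin k → ℝ) : ℝ := ∑ K : JJ k, gg (el K p) - ∑ j, Real.log (a j) * p j

theorem exists_min (a : Fin k → ℝ) (ha : ∀ j, 0 < a j) :
    ∃ p ∈ {p | ∀ K : JJ k, 0 ≤ el K p}, IsMinOn (ff a) {p | ∀ K : JJ k, 0 ≤ el K p} p := by
  have c1 : ∀ K : JJ k, Continuous (el K) := fun K => by unfold el; fun_prop
  have c2 : Continuous gg := Real.continuous_mul_log.sub continuous_id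
  have c3 : Continuous (ff a) :=
    (continuous_finsetSum _ fun K _ => c2.comp (c1 K)).sub (by fun_prop)
  have hcl : IsClosed {p | ∀ K : JJ k, 0 ≤ el K p} := by
    rw [ofPred_forall]
    exact isClosed_iInter fun K => isClosed_le continuous_const (c1 K)
  refine c3.continuousOn.exists_isMinOn' hcl (x₀ := fun _ => k) (fun K => ?_) ?_
  · have h1 : (K.1.card : ℝ) ≤ k := by exact_mod_cast K.1.card_le_univ.trans_eq (by simp)
    have := one_le_card K
    simp only [el, Finset.sum_const, nsmul_eq_mul]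
    nlinarith
  · set B := ff a (fun _ => k) + Fintype.card (JJ k) + ∑ j, a j * Real.exp 1
    rw [eventually_inf_principal]
    filter_upwards [(isCompact_closedBall (0 : Fin k → ℝ) |B|).compl_mem_cocompact] with p hp h
    have h0 : ∀ j, 0 ≤ p j := fun j => el_sing j p ▸ h (sing j)
    have h1 : ∑ j, (gg (p j) + 1) ≤ ∑ K : JJ k, (gg (el K p) + 1) := by
      have hi : Function.Injective (sing : Fin k → JJ k) := fun i j e =>
        Finset.singleton_injective (congrArg Subtype.val e)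
      calc _ = ∑ K ∈ Finset.univ.map ⟨sing, hi⟩, (gg (el K p) + 1) := by
            simp [el_sing]
        _ ≤ _ := Finset.sum_le_sum_of_subset_of_nonneg (Finset.subset_univ _) fun K _ _ => by
            have := le_gg (h K) one_pos
            rw [Real.log_one] at this
            linarith
    have h2 : ∑ j, (p j + Real.log (a j) * p j - a j * Real.exp 1) ≤ ∑ j, (gg (p j) + 1) :=
      Finset.sum_le_sum fun j _ => by
        have := le_gg (h0 j) (mul_pos (ha j) (Real.exp_pos 1))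
        rw [Real.log_mul (ha j).ne' (Real.exp_pos 1).ne', Real.log_exp] at this
        linarith
    have h3 : |B| < ∑ j, p j := not_le.1 fun h3 => hp (by
      rw [mem_closedBall_zero_iff, pi_norm_le_iff_of_nonneg (abs_nonneg _)]
      intro j
      rw [Real.norm_of_nonneg (h0 j)]
      exact (Finset.single_le_sum (fun j _ => h0 j) (Finset.mem_univ j)).trans h3)
    have h4 := h2.trans h1
    simp only [Finset.sum_add_distrib, Finset.sum_sub_distrib, Finset.sum_const, nsmul_eq_mul,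
      mul_one, Finset.card_univ] at h4
    have h5 := le_abs_self B
    simp only [B] at h5 h3
    conv_rhs => rw [ff]
    linarith

theorem pos_of_min {a p : Fin k → ℝ} (hp : ∀ K : JJ k, 0 ≤ el K p)
    (h : IsMinOn (ff a) {p | ∀ K : JJ k, 0 ≤ el K p} p) (K₀ : JJ k) : 0 < el K₀ p := by
  refine (hp K₀).lt_of_ne fun h0 => ?_
  set c := ∑ K : JJ k, K.1.card * Real.log (el K p + K.1.card)
  set A := ∑ j, Real.log (a j)
  obtain ⟨t, ht0, ht1, ht⟩ : ∃ t : ℝ, 0 < t ∧ t ≤ 1 ∧ Real.log t < A - c :=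
    ⟨Real.exp (-|A - c| - 1), Real.exp_pos _,
      Real.exp_le_one_iff.2 (by linarith [abs_nonneg (A - c)]),
      by rw [Real.log_exp]; linarith [neg_abs_le (A - c)]⟩
  have e : ∀ K : JJ k, el K (fun j => p j + t) = el K p + t * K.1.card := fun K => by
    simp only [el, Finset.sum_add_distrib, Finset.sum_const, nsmul_eq_mul]; ring
  have h1 : ff a p ≤ ff a fun j => p j + t := h fun K => by
    rw [e]; exact add_nonneg (hp K) (by positivity)
  have h2 : ∑ K : JJ k, (gg (el K p + t * K.1.card) - gg (el K p)) ≤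
      ∑ K : JJ k, t * (K.1.card * Real.log (el K p + K.1.card) +
        if K = K₀ then Real.log t else 0) := Finset.sum_le_sum fun K _ => by
    have q := one_le_card K
    refine (gg_add_le (hp K) (by positivity)).trans ?_
    rw [mul_assoc]
    refine mul_le_mul_of_nonneg_left ?_ ht0.le
    split_ifs with hK
    · rw [hK, ← h0, zero_add, zero_add, Real.log_mul ht0.ne' (by linarith [one_le_card K₀])]
      nlinarith [Real.log_nonpos ht0.le ht1, one_le_card K₀]
    · rw [add_zero]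
      have := hp K
      gcongr
      nlinarith
  simp only [ff, e, mul_add, Finset.sum_add_distrib, ← Finset.sum_mul] at h1
  rw [← Finset.mul_sum, Finset.sum_add_distrib, Finset.sum_ite_eq', if_pos (Finset.mem_univ _),
    Finset.sum_sub_distrib] at h2
  nlinarith

theorem crit {a p : Fin k → ℝ} (hp : ∀ K : JJ k, 0 < el K p)
    (h : IsMinOn (ff a) {p | ∀ K : JJ k, 0 ≤ el K p} p) (j : Fin k) :
    ∑ K ∈ Finset.univ.filter (fun K : JJ k => j ∈ K.1), Real.log (el K p) = Real.log (a j) := by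
  have e : ∀ (K : JJ k) (t : ℝ), el K (p + t • Pi.single j 1) =
      el K p + t * if j ∈ K.1 then 1 else 0 := fun K t => by
    simp only [el, Pi.add_apply, Pi.smul_apply, Finset.sum_add_distrib, smul_eq_mul,
      ← Finset.mul_sum, Pi.single_apply, Finset.sum_ite_eq']
    ring
  have e2 : ∀ t : ℝ, ∑ i, Real.log (a i) * (p + t • (Pi.single j 1 : Fin k → ℝ)) i =
      ∑ i, Real.log (a i) * p i + t * Real.log (a j) := fun t => by
    simp [mul_add, Finset.sum_add_distrib, Pi.single_apply, mul_comm t]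
  have hl : IsLocalMin (fun t : ℝ => ff a (p + t • Pi.single j 1)) 0 := by
    have : ∀ᶠ t : ℝ in 𝓝 0, ∀ K : JJ k, 0 < el K (p + t • Pi.single j 1) :=
      eventually_all.2 fun K => by
        simp only [e]
        exact ContinuousAt.eventually_lt continuousAt_const (by fun_prop) (by simpa using hp K)
    filter_upwards [this] with t ht
    simpa using h fun K => (ht K).le
  have d : ∀ K : JJ k, HasDerivAt (fun t : ℝ => gg (el K p + t * if j ∈ K.1 then 1 else 0))
      (Real.log (el K p) * if j ∈ K.1 then 1 else 0) 0 := fun K => by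
    have d1 : HasDerivAt gg (Real.log (el K p)) (el K p + 0 * if j ∈ K.1 then 1 else 0) := by
      have := (Real.hasDerivAt_mul_log (hp K).ne').fun_sub (hasDerivAt_id' _)
      rw [add_sub_cancel_right] at this
      rwa [zero_mul, add_zero]
    have d2 : HasDerivAt (fun t : ℝ => el K p + t * if j ∈ K.1 then 1 else 0)
        (if j ∈ K.1 then 1 else 0) 0 := (hasDerivAt_mul_const _).const_add _
    exact d1.comp (0 : ℝ) d2
  have hd := (HasDerivAt.fun_sum fun K (_ : K ∈ Finset.univ) => d K).fun_sub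
    ((hasDerivAt_mul_const (x := 0) (Real.log (a j))).const_add (∑ i, Real.log (a i) * p i))
  simp only [ff, e, e2] at hl
  have := hl.hasDerivAt_eq_zero hd
  rw [Finset.sum_filter]
  simpa [sub_eq_zero] using this

theorem deriv_line {f : (KK k → ℝ) → ℝ} (hf : ContDiff ℝ (⊤ : ℕ∞) f) (η v : KK k → ℝ) :
    HasDerivAt (fun t : ℝ => f (η + t • v)) (fderiv ℝ f η v) 0 := by
  have h1 : HasDerivAt (fun t : ℝ => η + t • v) v 0 := by
    simpa using ((hasDerivAt_id (0 : ℝ)).smul_const v).const_add η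
  have h2 : HasFDerivAt f (fderiv ℝ f η) (η + (0 : ℝ) • v) := by
    simpa using (hf.differentiable (by simp) η).hasFDerivAt
  exact h2.comp_hasDerivAt 0 h1

end P2

open P2

/-- surjectivity (minimise `∑_K (ℓ_K log ℓ_K - ℓ_K) - ⟨log a, p⟩` on the polyhedron
`ℓ_K(p) = ∑_{j ∈ K} p_j + |K| - |K|² ≥ 0`) -/
theorem exists_aa (m : ℝ) (a : Fin k → ℝ) (ha : ∀ j, 0 < a j) :
    ∃ η : KK k → ℝ, η none = m ∧ (∀ K, 1 < η (some K)) ∧ (∀ K, ee η K = 0) ∧ aa η = a := by
  obtain ⟨p, hp, h⟩ := exists_min a ha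
  have hpos := pos_of_min hp h
  choose y hy hy' using fun K : JJ k => exists_ps (hpos K)
  refine ⟨fun o => o.elim m y, rfl, hy, fun K => ?_, funext fun j => ?_⟩
  · simp only [ee, qq, Option.elim_some, hy', el_sing]
    simp only [el, J2.toJJ]
    ring
  · simp only [aa, qq, Option.elim_some, hy']
    refine Real.log_injOn_pos (Finset.prod_pos fun K _ => hpos K) (ha j) ?_
    rw [Real.log_prod fun K _ => (hpos K).ne', crit hpos h j]

/-- the differential of `(a, e)` is injective on the open cell (`∑_K δq_K² / q_K = 0`) -/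
theorem inj_fderiv {η : KK k → ℝ} (h : ∀ K, 1 < η (some K)) (v : KK k → ℝ)
    (ha : ∀ j, fderiv ℝ (fun ξ : KK k → ℝ => aa ξ j) η v = 0)
    (he : ∀ K, fderiv ℝ (fun ξ : KK k → ℝ => ee ξ K) η v = 0) (K : JJ k) : v (some K) = 0 := by
  choose d hd hd' using fun K : JJ k => exists_deriv_ps (h K)
  have hq : ∀ K, 0 < qq η K := fun K => ps_pos (h K)
  have h1 : ∀ K, HasDerivAt (fun t : ℝ => qq (η + t • v) K) (d K * v (some K)) 0 := fun K => by
    have d1 : HasDerivAt ps (d K) (η (some K) + 0 * v (some K)) := by simpa using hd' K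
    exact d1.comp 0 ((hasDerivAt_mul_const _).const_add _)
  set δ : JJ k → ℝ := fun K => d K * v (some K)
  have h2 : ∀ j, ∑ K ∈ Finset.univ.filter (fun K : JJ k => j ∈ K.1), δ K / qq η K = 0 := fun j => by
    have e := (HasDerivAt.fun_finsetProd fun K
      (_ : K ∈ Finset.univ.filter fun K : JJ k => j ∈ K.1) => h1 K).unique
        (deriv_line (contDiff_aa j) η v)
    rw [ha j] at e
    have hj : 0 < aa η j := Finset.prod_pos fun K _ => hq K
    refine (mul_eq_zero.1 (Eq.trans ?_ e)).resolve_left hj.ne'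
    rw [Finset.mul_sum]
    refine Finset.sum_congr rfl fun K hK => ?_
    rw [aa, ← Finset.mul_prod_erase _ _ hK]
    have := (hq K).ne'
    simp only [zero_smul, add_zero, smul_eq_mul, δ]
    field_simp
  have h3 : ∀ K, δ K = ∑ j ∈ K.1, δ (sing j) := fun K => by
    by_cases hK : 2 ≤ K.1.card
    · have e := ((((h1 K).fun_sub (HasDerivAt.fun_sum fun j (_ : j ∈ K.1) => h1 (sing j))).sub_const
        (K.1.card : ℝ)).add_const ((K.1.card : ℝ) ^ 2)).unique
          (deriv_line (contDiff_ee ⟨K.1, hK⟩) η v)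
      rw [he] at e
      exact sub_eq_zero.1 e
    · obtain ⟨j, hj⟩ := Finset.card_eq_one.1 (le_antisymm (by omega) K.2.card_pos)
      rw [hj, Finset.sum_singleton, show K = sing j from Subtype.ext hj]
  have h4 : ∑ K, δ K ^ 2 / qq η K = 0 := by
    calc _ = ∑ K : JJ k, ∑ j, if j ∈ K.1 then δ (sing j) * (δ K / qq η K) else 0 :=
          Finset.sum_congr rfl fun K _ => by
            rw [Finset.sum_ite_mem, Finset.univ_inter, ← Finset.sum_mul, ← h3]; ring
      _ = 0 := by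
          rw [Finset.sum_comm]
          refine Finset.sum_eq_zero fun j _ => ?_
          rw [← Finset.sum_filter, ← Finset.mul_sum, h2, mul_zero]
  have h5 := (Finset.sum_eq_zero_iff_of_nonneg fun K _ =>
    div_nonneg (sq_nonneg _) (hq K).le).1 h4 K (Finset.mem_univ _)
  simpa [δ, (hq K).ne', (hd K).ne'] using h5

end Crest.Agent.N222.C
end
end

-- ▼ part N222/C/Eval

/-!
# Row 222, part C: the cochain of the vertex field is a non zero multiple of `alt α ∘ yl`
-/

set_option autoImplicit false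
set_option maxHeartbeats 400000

open Set Filter Topology

noncomputable section

namespace Crest.Agent.N222.C

/-- bumps of radius `ε` -/
structure IsBump {N : ℕ} (w : (Fin N → ℝ) → ℝ) (ε : ℝ) : Prop where
  sm : ContDiff ℝ 1 w
  nn : ∀ t, 0 ≤ w t
  perm : ∀ t (ϖ : Equiv.Perm (Fin N)), w (fun i => t (ϖ i)) = w t
  zero : ∀ t, ε ≤ ‖t‖ → w t = 0
  pos : ∀ t, ‖t‖ < ε → 0 < w t

theorem exists_isBump (N : ℕ) {ε : ℝ} (hε : 0 < ε) : ∃ w : (Fin N → ℝ) → ℝ, IsBump w ε := by
  refine ⟨fun t => bmp N (ε⁻¹ • t), contDiff_bmp.comp (contDiff_const_smul _),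
    fun t => bmp_nonneg _, fun t ϖ => bmp_perm (ε⁻¹ • t) ϖ, fun t ht => bmp_eq_zero ?_,
    fun t ht => bmp_pos_iff.2 ?_⟩
  · rw [norm_smul, Real.norm_of_nonneg (inv_pos.2 hε).le, ← div_eq_inv_mul]
    exact (one_le_div hε).2 ht
  · rw [norm_smul, Real.norm_of_nonneg (inv_pos.2 hε).le, ← div_eq_inv_mul]
    exact (div_lt_one hε).2 ht

/-- the box is large enough -/
def Big (k : ℕ) (L : ℝ) : Prop :=
  2 < L ∧ ∀ η : KK k → ℝ, (∀ K, |ee η K| ≤ 1 / 4) → (∀ j, aa η j ≤ 2) → ∀ K, |η (some K)| < L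

theorem exists_big (k : ℕ) (B : ℝ) : ∃ L, B < L ∧ Big k L := by
  obtain ⟨L, h2, hL⟩ := exists_bound k 2
  exact ⟨max L (B + 1), lt_max_of_lt_right (lt_add_one B), lt_max_of_lt_left h2,
    fun η h h' K => lt_max_of_lt_left (hL η h h' K)⟩

variable {n k r : ℕ} (eκ : Fin r ≃ KK k) (eτ : Fin (r + n) ≃ TT n k)

/-- the standard cell map -/
def Fstd (z : Fin (r + n) → ℝ) (i : Fin (r + n)) : ℝ :=
  MM n k * Sum.elim (fun p : Col n k => Sum.elim (wt (cub r z)) (fun _ => 0) p -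
      (fib eκ z none - ∑ j ∈ blk ∅ p, aa (fib eκ z) j)) (ee (fib eκ z)) (eτ i)

/-- the standard integral -/
def Bstd (w : (Fin (r + n) → ℝ) → ℝ) (L : ℝ) : ℝ :=
  bint w univ (Fstd eκ eτ) (lo eκ L n) (hi r L n)

theorem contDiff_Fstd : ContDiff ℝ (⊤ : ℕ∞) (Fstd (n := n) eκ eτ) := by
  have hf := contDiff_fib (q := n) eκ
  have h0 : ContDiff ℝ (⊤ : ℕ∞) fun z : Fin (r + n) → ℝ => fib eκ z none := contDiff_apply ℝ ℝ _
  have ha : ∀ S : Finset (Fin k), ContDiff ℝ (⊤ : ℕ∞) fun z : Fin (r + n) → ℝ =>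
      fib eκ z none - ∑ j ∈ S, aa (fib eκ z) j := fun S =>
    h0.sub (ContDiff.sum fun j _ => (contDiff_aa j).comp hf)
  refine contDiff_pi.2 fun i => contDiff_const.mul ?_
  rcases eτ i with (l | j) | K
  · exact ((contDiff_wt l).comp contDiff_cub).sub (ha _)
  · exact contDiff_const.sub (ha _)
  · exact (contDiff_ee K).comp hf

theorem hasDerivAt_line {E E' : Type} [NormedAddCommGroup E] [NormedSpace ℝ E]
    [NormedAddCommGroup E'] [NormedSpace ℝ E'] {f : E → E'} (hf : ContDiff ℝ (⊤ : ℕ∞) f) (x v : E) :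
    HasDerivAt (fun t : ℝ => f (x + t • v)) (fderiv ℝ f x v) 0 :=
  (hf.differentiable (by simp) x).hasFDerivAt.hasLineDerivAt v

theorem jac_Fstd_ne_zero {z : Fin (r + n) → ℝ} (h1 : ∀ K, 1 < fib eκ z (some K))
    (h2 : ∀ j, 0 < cub r z j) : jac (Fstd eκ eτ) z ≠ 0 := by
  refine jac_ne_zero fun v hv => ?_
  have hM := (MM_pos n k).ne'
  have hD : ∀ c, HasDerivAt (fun t : ℝ => Fstd eκ eτ (z + t • v) (eτ.symm c)) 0 0 := fun c => by
    have := hasDerivAt_line (contDiff_Fstd eκ eτ) z v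
    rw [hv] at this
    exact hasDerivAt_pi.1 this _
  have ef : ∀ t : ℝ, fib eκ (z + t • v) = fib eκ z + t • fib eκ v := fun _ => rfl
  have ec : ∀ t : ℝ, cub r (z + t • v) = cub r z + t • cub r v := fun _ => rfl
  simp only [Fstd, Equiv.apply_symm_apply, ef, ec] at hD
  have d0 : HasDerivAt (fun t : ℝ => (fib eκ z + t • fib eκ v) none) (fib eκ v none) 0 := by
    simpa using ((hasDerivAt_id (0 : ℝ)).mul_const (fib eκ v none)).const_add (fib eκ z none)
  have dw := fun l => hasDerivAt_line (contDiff_wt l) (cub r z) (cub r v)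
  have da := fun j => hasDerivAt_line (contDiff_aa j) (fib eκ z) (fib eκ v)
  have hW : ∀ l, fderiv ℝ (fun s : Fin n → ℝ => wt s l) (cub r z) (cub r v) = fib eκ v none :=
    fun l => by
      have h := hD (Sum.inl (Sum.inl l))
      simp only [Sum.elim_inl, blk, Finset.sum_empty, sub_zero] at h
      have := h.unique (((dw l).sub d0).const_mul (MM n k))
      exact sub_eq_zero.1 ((mul_eq_zero.1 this.symm).resolve_left hM)
  have hm : fib eκ v none = 0 := by
    have h := HasDerivAt.fun_sum (u := Finset.univ) fun l _ => dw l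
    simp only [wt_sum, hW, Finset.sum_const, Finset.card_univ, Fintype.card_fin,
      nsmul_eq_mul] at h
    exact (mul_eq_zero.1 (h.unique (hasDerivAt_const _ _))).resolve_left (by positivity)
  have hS : ∀ j, ∑ j' ∈ Finset.Iic j,
      fderiv ℝ (fun ξ : KK k → ℝ => aa ξ j') (fib eκ z) (fib eκ v) = 0 := fun j => by
    have h := hD (Sum.inl (Sum.inr j))
    simp only [Sum.elim_inl, Sum.elim_inr, blk, Finset.sdiff_empty] at h
    have := h.unique (((d0.sub (HasDerivAt.fun_sum (u := Finset.Iic j) fun j' _ => da j')).const_sub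
      0).const_mul (MM n k))
    have := (mul_eq_zero.1 this.symm).resolve_left hM
    rw [hm] at this
    linarith
  have hA : ∀ j, fderiv ℝ (fun ξ : KK k → ℝ => aa ξ j) (fib eκ z) (fib eκ v) = 0 := fun j => by
    induction j using WellFoundedLT.induction with
    | ind j ih =>
      rw [← hS j, Finset.sum_eq_single j
        (fun b hb hb' => ih b (lt_of_le_of_ne (Finset.mem_Iic.1 hb) hb'))
        fun h => absurd (Finset.mem_Iic.2 le_rfl) h]
  have hE : ∀ K, fderiv ℝ (fun ξ : KK k → ℝ => ee ξ K) (fib eκ z) (fib eκ v) = 0 := fun K => by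
    have := (hD (Sum.inr K)).unique
      ((hasDerivAt_line (contDiff_ee K) (fib eκ z) (fib eκ v)).const_mul (MM n k))
    exact (mul_eq_zero.1 this.symm).resolve_left hM
  have hc := wt_inj_fderiv h2 (cub r v) fun l => (hW l).trans hm
  have hf : ∀ c, fib eκ v c = 0 := fun c => by
    cases c with
    | none => exact hm
    | some K => exact inj_fderiv h1 _ hA hE K
  funext i
  refine Fin.addCases (fun i => ?_) (fun j => congrFun hc j) i
  simpa [fib] using hf (eκ i)

theorem jac_Fstd_eq_zero {z : Fin (r + n) → ℝ} {K : JJ k} (h : |fib eκ z (some K)| < 1) :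
    jac (Fstd eκ eτ) z = 0 := by
  refine jac_eq_zero_of_update (Fin.castAdd n (eκ.symm (some K))) ?_
  filter_upwards [(isOpen_lt continuous_abs continuous_const).mem_nhds h] with c hc
  have ef : fib eκ (Function.update z (Fin.castAdd n (eκ.symm (some K))) c) =
      Function.update (fib eκ z) (some K) c := by
    funext x
    simp only [fib, Function.update_apply, Fin.castAdd_inj, eκ.symm.apply_eq_iff_eq]
  have ec : cub r (Function.update z (Fin.castAdd n (eκ.symm (some K))) c) = cub r z := by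
    funext j
    refine Function.update_of_ne (fun e => ?_) _ _
    have := congrArg Fin.val e
    have h2 := (eκ.symm (some K)).2
    simp only [Fin.val_natAdd, Fin.val_castAdd] at this
    omega
  have hq := qq_update h.le (le_of_lt hc)
  have e1 : aa (Function.update (fib eκ z) (some K) c) = aa (fib eκ z) := by
    funext j; simp only [aa, hq]
  have e2 : ee (Function.update (fib eκ z) (some K) c) = ee (fib eκ z) := by
    funext j; simp only [ee, hq]
  funext i
  simp only [Fstd, ef, ec, e1, e2, Function.update_of_ne (show none ≠ some K by simp)]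

/-- `bint_ne_zero` with `U = {1 < y_K, 0 < s_j}`; `inj_fderiv`, `wt_inj_fderiv`, `qq_update`,
`exists_aa` (with `m = a₀ = 1 / (n + 1)`, the other `a_j` small), `exists_wt_bary` -/
theorem Bstd_ne_zero {w : (Fin (r + n) → ℝ) → ℝ} {ε : ℝ} (hw : IsBump w ε) (hε : 0 < ε) {L : ℝ}
    (hL : Big k L) : Bstd eκ eτ w L ≠ 0 := by
  have hM := MM_pos n k
  set m : ℝ := 1 / ((n : ℝ) + 1) with hm
  have hm0 : 0 < m := by positivity
  have hm1 : m ≤ 1 := by
    rw [hm, div_le_one (by positivity)]; linarith [Nat.cast_nonneg (α := ℝ) n]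
  set δ : ℝ := min 1 (ε / (MM n k * (k + 1))) with hδ
  have hδ0 : 0 < δ := lt_min one_pos (by positivity)
  have hδ1 : δ ≤ 1 := min_le_left _ _
  have hδ2 : MM n k * (k * δ) < ε := by
    have h1 : δ * (MM n k * (k + 1)) ≤ ε := (le_div_iff₀ (by positivity)).1 (min_le_right _ _)
    nlinarith [mul_pos hM hδ0]
  obtain ⟨s, hs, hws⟩ := exists_wt_bary n
  obtain ⟨η, hη0, hη1, hη2, hη3⟩ := exists_aa (k := k) m
    (fun j => δ + if (j : ℕ) = 0 then m else 0) fun j => by split_ifs <;> positivity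
  have hηL := hL.2 η (fun K => by rw [hη2]; norm_num) fun j => by
    rw [hη3]; dsimp only; split_ifs <;> linarith
  have hf : fib eκ (Fin.append (fun i => η (eκ i)) s) = η := by
    funext c; simp [fib]
  have hc : cub r (Fin.append (fun i => η (eκ i)) s) = s := by
    funext c; simp [cub]
  refine bint_ne_zero hw.sm.continuous hw.nn ((contDiff_Fstd eκ eτ).of_le (by simp))
    (U := {z | (∀ K, 1 < fib eκ z (some K)) ∧ ∀ j, 0 < cub r z j}) ?_ ?_
    (fun z hz => jac_Fstd_ne_zero eκ eτ hz.1 hz.2) (fun z hz hz' => ?_)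
    (x₀ := Fin.append (fun i => η (eκ i)) s) ?_ (fun i => ?_) (hw.pos _ ?_)
  · simp only [ofPred_and, ofPred_forall]
    exact (isOpen_iInter_of_finite fun K => isOpen_lt continuous_const (continuous_apply _)).inter
      (isOpen_iInter_of_finite fun j => isOpen_lt continuous_const (continuous_apply _))
  · refine Convex.isPreconnected fun x hx y hy a b ha hb hab => ⟨fun K => ?_, fun j => ?_⟩
    · exact convex_Ioi (1 : ℝ) (hx.1 K) (hy.1 K) ha hb hab
    · exact convex_Ioi (0 : ℝ) (hx.2 j) (hy.2 j) ha hb hab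
  · have hb := mem_box.1 hz
    by_cases h1 : ∀ K, 1 ≤ fib eκ z (some K)
    · refine absurd (mem_closure_of_tendsto (b := 𝓝[>] (0 : ℝ)) (f := fun t : ℝ => z + t • 1)
        (tendsto_nhdsWithin_of_tendsto_nhds ?_) (eventually_mem_nhdsWithin.mono fun t ht => ?_)) hz'
      · exact Continuous.tendsto' (by fun_prop) _ _ (by simp)
      · have ht : 0 < t := ht
        refine ⟨fun K => ?_, fun j => ?_⟩
        · have := h1 K
          simp only [fib, Pi.add_apply, Pi.smul_apply, Pi.one_apply, smul_eq_mul] at this ⊢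
          linarith
        · have := (hb.2.2 j).1
          simp only [cub, Pi.add_apply, Pi.smul_apply, Pi.one_apply, smul_eq_mul] at this ⊢
          linarith
    · obtain ⟨K, hK⟩ := not_forall.1 h1
      exact jac_Fstd_eq_zero eκ eτ (abs_lt.2 ⟨by linarith [(hb.2.1 K).1], not_le.1 hK⟩)
  · exact ⟨fun K => by rw [hf]; exact hη1 K, fun j => by rw [hc]; exact (hs j).1⟩
  · refine Fin.addCases (fun i => ?_) (fun j => ?_) i
    · simp only [lo, hi, Fin.append_left]
      have h2 := hL.1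
      cases eκ i with
      | none => simp only [Option.elim, hη0]; constructor <;> linarith
      | some K => exact ⟨one_pos.trans (hη1 K), (abs_lt.1 (hηL K)).2⟩
    · simpa only [lo, hi, Fin.append_right] using hs j
  · refine (pi_norm_lt_iff hε).2 fun i => ?_
    rw [Fstd, hf, hc, hη3, hη0]
    rcases eτ i with (l | j) | K
    · simpa [blk, hws, hm] using hε
    · have e : ∑ j' ∈ Finset.Iic j, (if (j' : ℕ) = 0 then m else 0) = m := by
        rw [Finset.sum_eq_single ⟨0, j.pos⟩ (fun b _ hb => if_neg fun h => hb (Fin.ext h))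
          fun h => absurd (Finset.mem_Iic.2 (Fin.le_def.2 (Nat.zero_le _))) h, if_pos rfl]
      have hk : ((Finset.Iic j).card : ℝ) ≤ k := by
        exact_mod_cast (Finset.card_le_univ _).trans_eq (Fintype.card_fin k)
      simp only [Sum.elim_inl, Sum.elim_inr, blk, Finset.sdiff_empty, Finset.sum_add_distrib, e,
        Finset.sum_const, nsmul_eq_mul]
      rw [show (0 : ℝ) - (m - ((Finset.Iic j).card * δ + m)) = (Finset.Iic j).card * δ by ring,
        Real.norm_of_nonneg (by positivity)]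
      exact lt_of_le_of_lt (by gcongr) hδ2
    · simpa [hη2] using hε

variable {Γ T Lb : Type} [Group Γ] [MulAction Γ T] [MulAction Γ Lb]

open Classical in
/-- the cell map of the vertex field -/
def Fs (u : Sh Lb n k) (σ : Fin (n + 1) → Lb) (z : Fin (r + n) → ℝ) (i : Fin (r + n)) : ℝ :=
  Gs u (fun y => ∑ l, wt (cub r z) l * (Pi.single (σ l) 1 : Lb → ℝ) y) (fib eκ z) (eτ i)

/-- its integral -/
def Bs (w : (Fin (r + n) → ℝ) → ℝ) (L : ℝ) (u : Sh Lb n k) (σ : Fin (n + 1) → Lb) : ℝ :=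
  bint w univ (Fs eκ eτ u σ) (lo eκ L n) (hi r L n)

namespace Dat

variable {d : Dat Γ T Lb n k} {F : Lb → Set T} {w : (Fin (r + n) → ℝ) → ℝ} {ε : ℝ}

theorem _root_.Crest.Agent.N222.C.bint_perm {N : ℕ} {w : (Fin N → ℝ) → ℝ}
    (hw : ∀ t (ϖ : Equiv.Perm (Fin N)), w (fun i => t (ϖ i)) = w t)
    (F : (Fin N → ℝ) → Fin N → ℝ) (ϖ : Equiv.Perm (Fin N)) (a b : Fin N → ℝ) :
    bint w univ (fun z i => F z (ϖ i)) a b =
      ((Equiv.Perm.sign ϖ : ℤ) : ℝ) * bint w univ F a b := by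
  simp only [bint, dens, indicator_univ, jac_perm, hw, ← MeasureTheory.integral_const_mul]
  congr 1
  funext x
  ring

/-- `Fs` is `Fstd` followed by a permutation of the coordinates (`jac_perm`) -/
theorem Bs_perm (hw : IsBump w ε) (L : ℝ) {u : Sh Lb n k} (hu : d.Valid u) {σ : Fin (n + 1) → Lb}
    {ρ : Equiv.Perm (Fin (n + 1))} (h : ∀ i, σ i = u.sig (ρ i)) :
    Bs eκ eτ w L u σ =
      ((Equiv.Perm.sign u.pos : ℤ) : ℝ) * ((Equiv.Perm.sign ρ : ℤ) : ℝ) * Bstd eκ eτ w L := by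
  classical
  let π : Equiv.Perm (TT n k) :=
    Equiv.sumCongr (u.pos.symm.trans (Equiv.sumCongr ρ.symm (Equiv.refl _))) (Equiv.refl _)
  have e : Fs eκ eτ u σ = fun z i => Fstd eκ eτ z (((eτ.trans π).trans eτ.symm) i) := by
    funext z i
    simp only [Fs, Fstd, Gs, Equiv.trans_apply, Equiv.apply_symm_apply]
    rcases eτ i with c | K
    · obtain ⟨p, rfl⟩ := u.pos.surjective c
      simp only [π, lab, Gf, eta, Sum.elim_inl, Equiv.sumCongr_apply, Sum.map_inl,
        Equiv.trans_apply, Equiv.symm_apply_apply]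
      rcases p with l | j
      · rw [hu.sig, Option.elim_some, Finset.sum_eq_single (ρ.symm l) (fun b _ hb => ?_)
          fun h => absurd (Finset.mem_univ _) h]
        · simp only [h, Equiv.apply_symm_apply, Pi.single_eq_same, Sum.map_inl, Sum.elim_inl, blk]
          ring
        · rw [h, Pi.single_eq_of_ne (fun e => hb ?_), mul_zero]
          rw [hu.sig_inj e, Equiv.symm_apply_apply]
      · have e0 : (u.lam (u.pos (Sum.inr j))).elim (0 : ℝ)
            (fun y => ∑ l, wt (cub r z) l * (Pi.single (σ l) 1 : Lb → ℝ) y) = 0 := by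
          cases hy : u.lam (u.pos (Sum.inr j)) with
          | none => rfl
          | some y =>
            refine Finset.sum_eq_zero fun l _ => ?_
            rw [Pi.single_eq_of_ne (fun e => ?_), mul_zero]
            rw [e, h] at hy
            simpa using u.pos.injective (hu.inj _ _ _ hy (hu.sig _))
        simp only [Sum.map_inr, Sum.elim_inr, Equiv.refl_apply]
        rw [show ∀ a b : ℝ, MM n k * (0 - (a - b)) = MM n k * 0 + -(MM n k * (a - b)) from
          fun a b => by ring]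
        congr 2
    · simp [π, lab, Gf]
  have hs : Equiv.Perm.sign ((eτ.trans π).trans eτ.symm) =
      Equiv.Perm.sign u.pos * Equiv.Perm.sign ρ := by
    have := Equiv.Perm.sign_symm_trans_trans π eτ.symm
    rw [Equiv.symm_symm] at this
    rw [this]
    simp [π, Equiv.Perm.sign_sumCongr, mul_comm]
  rw [Bs, Bstd, e, bint_perm hw.perm, hs]
  push_cast
  ring

/-- a label of the top block which is not charged (`kc_of_norm`) -/
theorem Bs_zero (hw : IsBump w ε) (hε : ε ≤ 1) (L : ℝ) {u : Sh Lb n k} (hu : d.Valid u)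
    {σ : Fin (n + 1) → Lb} (hσ : ∀ i, σ i ∈ d.A ∅ u) {i₀ : Fin (n + 1)} (h : ∀ i, σ i ≠ u.sig i₀) :
    Bs eκ eτ w L u σ = 0 := by
  classical
  refine bint_eq_zero fun z hz _ => mul_eq_zero_of_left (hw.zero _ (not_lt.1 fun hlt => ?_)) _
  have hb := (mem_box.1 hz).2.2
  obtain ⟨x, -⟩ := hu.ne
  have hp : Prob (fun y => {_x : T | y ∈ range σ}) x
      (fun y => ∑ l, wt (cub r z) l * (Pi.single (σ l) 1 : Lb → ℝ) y) := by
    have := (convex_prob (R := fun y => {_x : T | y ∈ range σ}) (x := x) (finite_range σ)).sum_mem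
      (t := Finset.univ) (fun l _ => wt_nonneg (fun j => (hb j).1) (fun j => (hb j).2) l)
      (wt_sum _) fun l _ => prob_single (y := σ l) ⟨l, rfl⟩
    rw [mem_ofPred_eq] at this
    convert this using 1
    funext y
    simp only [Finset.sum_apply, Pi.smul_apply, smul_eq_mul]
  have hk := kc_of_norm hu hp (by rintro y ⟨l, rfl⟩; exact hσ l) (η := fib eκ z)
    ((pi_norm_le_iff_of_nonneg zero_le_one).2 fun c => by
      have := (norm_le_pi_norm (Fs eκ eτ u σ z) (eτ.symm c)).trans (hlt.le.trans hε)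
      simpa only [Fs, Equiv.apply_symm_apply] using this)
  have hM := inv_pos.2 (MM_pos n k)
  rcases hk.act (u.pos (Sum.inl i₀)) with h1 | ⟨y, hy, l, rfl⟩
  · have := hk.m
    simp only [eta, Equiv.symm_apply_apply, blk, Finset.sum_empty, sub_zero] at h1
    linarith
  · exact h l (Option.some_injective _ (hy.symm.trans (hu.sig i₀)))

theorem sum_Bs (hw : IsBump w ε) (hε : ε ≤ 1) (L : ℝ) {σ : Fin (n + 1) → Lb} {x₀ : T}
    (h : ∀ i, x₀ ∈ d.O (σ i)) :
    ∑ᶠ u ∈ {u : d.U | x₀ ∈ d.X ∅ u.1}, d.sgn u * Bs eκ eτ w L u.1 σ =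
      ((n + 1 + k).factorial * k.factorial : ℕ) * Bstd eκ eτ w L * alt d.α σ := by
  classical
  have key : ∀ u : d.U, x₀ ∈ d.X ∅ u.1 → Bs eκ eτ w L u.1 σ ≠ 0 →
      ∃ ρ : Equiv.Perm (Fin (n + 1)), ∀ i, u.1.sig i = σ (ρ i) := fun u hu hB => by
    have h1 : ∀ i₀, ∃ i, σ i = u.1.sig i₀ := fun i₀ => by
      by_contra hc
      exact hB (Bs_zero eκ eτ hw hε L u.2 (fun i => ⟨x₀, h i, hu⟩) (i₀ := i₀)
        fun i hi => hc ⟨i, hi⟩)
    choose f hf using h1
    have hi : Function.Injective f := fun a b hab =>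
      u.2.sig_inj (by rw [← hf a, ← hf b, hab])
    exact ⟨Equiv.ofBijective f (Finite.injective_iff_bijective.1 hi), fun i => (hf i).symm⟩
  by_cases hσ : Function.Injective σ
  swap
  · rw [alt_eq_zero _ hσ, mul_zero]
    refine finsum_mem_of_eqOn_zero fun u hu => ?_
    by_contra hc
    obtain ⟨ρ, hρ⟩ := key u hu (right_ne_zero_of_mul hc)
    refine hσ fun a b hab => ρ.symm.injective (u.2.sig_inj ?_)
    rw [hρ, hρ, ρ.apply_symm_apply, ρ.apply_symm_apply, hab]
  have h1 : ∀ u : d.U, x₀ ∈ d.X ∅ u.1 → d.sgn u * Bs eκ eτ w L u.1 σ =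
      ∑ ρ : Equiv.Perm (Fin (n + 1)), if u.1.sig = (fun i => σ (ρ i)) then
        Bstd eκ eτ w L * ((Equiv.Perm.sign ρ : ℤ) : ℝ) * (if 0 < d.α u.1.sig then 1 else -1 : ℝ)
        else 0 := fun u hu => by
    by_cases hc : ∃ ρ : Equiv.Perm (Fin (n + 1)), ∀ i, u.1.sig i = σ (ρ i)
    · obtain ⟨ρ, hρ⟩ := hc
      rw [Finset.sum_eq_single ρ, if_pos (funext hρ),
        Bs_perm eκ eτ hw L u.2 (ρ := ρ.symm) fun i => by rw [hρ, ρ.apply_symm_apply], sgn,
        Equiv.Perm.sign_symm]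
      · have e : ((Equiv.Perm.sign u.1.pos : ℤ) : ℝ) * ((Equiv.Perm.sign u.1.pos : ℤ) : ℝ) = 1 := by
          rcases Int.units_eq_one_or (Equiv.Perm.sign u.1.pos) with e | e <;> simp [e]
        linear_combination ((if 0 < d.α u.1.sig then 1 else -1 : ℝ) *
          ((Equiv.Perm.sign ρ : ℤ) : ℝ) * Bstd eκ eτ w L) * e
      · refine fun ρ' _ hne => if_neg fun e => hne (Equiv.ext fun i => hσ ?_)
        rw [← hρ, e]
      · simp
    · have h0 : Bs eκ eτ w L u.1 σ = 0 := by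
        by_contra hB
        exact hc (key u hu hB)
      rw [h0, mul_zero]
      exact (Finset.sum_eq_zero fun ρ _ => if_neg fun e => hc ⟨ρ, congrFun e⟩).symm
  rw [finsum_mem_eq_finite_toFinset_sum _ (d.finite_X x₀),
    Finset.sum_congr rfl fun u hu => h1 u ((d.finite_X x₀).mem_toFinset.1 hu), Finset.sum_comm, alt,
    Finset.mul_sum]
  refine Finset.sum_congr rfl fun ρ _ => ?_
  have h2 := d.sum_sig (σ := fun i => σ (ρ i)) (hσ.comp ρ.injective) ⟨x₀, fun i => h _⟩
  have h3 : {u : d.U | u.1.sig = fun i => σ (ρ i)} =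
      ((d.finite_X x₀).toFinset.filter fun u => u.1.sig = fun i => σ (ρ i) : Finset d.U) := by
    ext u
    simp only [mem_ofPred_eq, Finset.coe_filter, Set.Finite.mem_toFinset]
    exact ⟨fun e => ⟨u.2.mem_X.2 fun i => by rw [e]; exact h _, e⟩, fun e => e.2⟩
  rw [h3, finsum_mem_coe_finset] at h2
  rw [← Finset.sum_filter, ← Finset.mul_sum, h2]
  ring

variable (d)

open Classical in
/-- the vertex field -/
def Hv (yl : T → Lb) (z : T × d.gl.YY) (i : Fin (r + n)) : ℝ :=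
  d.GG (Pi.single (yl z.1) 1) z.2 (eτ i)

/-- the tuple `x` is close to `x₀` -/
structure Near (F : Lb → Set T) (Ω : Set (T × d.gl.YY)) (yl : T → Lb) (x₀ x : T) : Prop where
  yl : x₀ ∈ F (yl x)
  mem : ∀ y, x₀ ∈ F y → x ∈ d.O y
  kc : ∀ p, (x₀, p) ∈ d.KC F → (x, p) ∈ Ω

variable {d}

open Classical in
theorem cell_eval [TopologicalSpace T] (hF : d.Sub F) (hw : IsBump w ε) (hε : ε ≤ 1) (L : ℝ)
    {Ω : Set (T × d.gl.YY)} (hΩ : IsOpen Ω) (hZ : Ω ⊆ d.ZZ) {yl : T → Lb} {x₀ : T}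
    {x : Fin (n + 1) → T} (hx : ∀ i, d.Near F Ω yl x₀ (x i)) (g : Finset (JJ k)) (v : d.VV) :
    bint w (d.gl.Oc eκ (d.gl.DD Ω x) g v)
      (d.gl.Fc eκ (fun c η => ∑ i, wt c i • d.Hv eτ yl (x i, η)) g v) (lo eκ L n) (hi r L n) =
      if x₀ ∈ d.X ∅ v.u.1 then Bs eκ eτ w L v.u.1 (fun i => yl (x i)) else 0 := by
  have hD : IsOpen (d.gl.DD Ω x) := by
    rw [Gl.DD, ofPred_forall]
    exact isOpen_iInter_of_finite fun i => hΩ.preimage (Continuous.prodMk_right (x i))
  have e : EqOn (d.gl.Fc eκ (fun c η => ∑ i, wt c i • d.Hv eτ yl (x i, η)) g v)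
      (Fs eκ eτ v.u.1 fun i => yl (x i)) (d.gl.Oc eκ (d.gl.DD Ω x) g v) := fun z hz => by
    funext j
    have h1 : ∀ i, d.Hv eτ yl (x i, d.gl.pt eκ g v z) j =
        Gs v.u.1 (Pi.single (yl (x i)) 1) (fib eκ z) (eτ j) := fun i => by
      have h2 := d.GG_sec hz.1 (hZ (hz.2 i)) (t := Pi.single (yl (x i)) 1) fun y hy => by
        obtain rfl : y = yl (x i) := by
          by_contra hc
          exact hy (Pi.single_eq_of_ne hc _)
        exact (hx i).mem _ (hx i).yl
      rw [Hv, Gl.pt, h2, Gs, Gs, Gf_flp]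
    rw [Fs, ← Gs_sum _ (wt_sum _), Gl.Fc, Finset.sum_apply, Finset.sum_apply]
    exact Finset.sum_congr rfl fun i _ => by rw [Pi.smul_apply, Pi.smul_apply, h1]
  rw [bint_congr (Gl.isOpen_Oc hD g v) e]
  have hfin : {y | x₀ ∈ F y}.Finite :=
    (d.nb_fin (yl (x 0))).subset fun y hy => ⟨x₀, hF.sub _ (hx 0).yl, hF.sub _ hy⟩
  have hK : ∀ z ∈ Icc (lo eκ L n) (hi r L n), w (Fs eκ eτ v.u.1 (fun i => yl (x i)) z) ≠ 0 →
      (∀ y, x₀ ∈ F y → y ∈ d.A ∅ v.u.1) → Kc F x₀ v.u.1 (fib eκ z) := fun z hz h0 hA => by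
    have h1 := (mem_box.1 hz).2.2
    have h2 := (convex_prob hfin).sum_mem (t := Finset.univ) (w := wt (cub r z))
      (z := fun i => Pi.single (yl (x i)) 1)
      (fun i _ => wt_nonneg (fun j => (h1 j).1) (fun j => (h1 j).2) i) (wt_sum _)
      fun i _ => prob_single (hx i).yl
    have h3 : (∑ i, wt (cub r z) i • (Pi.single (yl (x i)) 1 : Lb → ℝ)) =
        fun y => ∑ l, wt (cub r z) l * (Pi.single (yl (x l)) 1 : Lb → ℝ) y := by
      funext y
      rw [Finset.sum_apply]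
      rfl
    rw [h3] at h2
    refine kc_of_norm v.u.2 h2 hA ((pi_norm_le_iff_of_nonneg zero_le_one).2 fun c => ?_)
    have h4 : ‖Fs eκ eτ v.u.1 (fun i => yl (x i)) z‖ < ε := not_le.1 fun h => h0 (hw.zero _ h)
    have h5 := norm_le_pi_norm (Fs eκ eτ v.u.1 (fun i => yl (x i)) z) (eτ.symm c)
    rw [Fs, eτ.apply_symm_apply] at h5
    linarith
  split_ifs with h0
  · refine bint_dom (fun _ _ _ _ => mem_univ _) fun z hz _ h1 => ?_
    have h2 := (kc_flp g).2 (hK z hz h1 fun y hy => ⟨x₀, hF.sub _ hy, h0⟩)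
    have h3 : flp g (fib eκ z) ∈ Ug g :=
      mem_Ug_of_Cg h2.mem_UU (flp_mem_Cg g fun K => ((mem_box.1 hz).2.1 K).1)
    exact ⟨h3, fun i => (hx i).kc _ ((hF.mem_KC_sec h3).2 h2)⟩
  · refine bint_eq_zero fun z hz hO => mul_eq_zero_of_left ?_ _
    by_contra h1
    have h2 := X_anti (Finset.empty_subset _) _ ((d.mem_ZZ_sec hO.1).1 (hZ (hO.2 0)))
    exact h0 (X_anti (Finset.empty_subset _) _
      (hF.mem_X (hK z hz h1 fun y hy => ⟨x 0, (hx 0).mem y hy, h2⟩)))

/-- **evaluation** -/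
theorem eval [TopologicalSpace T] (hF : d.Sub F) (hw : IsBump w ε) (hε₀ : 0 < ε) (hε : ε ≤ 1)
    {L : ℝ} (hL : Big k L) : ∃ C : ℝ, C ≠ 0 ∧ ∀ Ω : Set (T × d.gl.YY), IsOpen Ω → Ω ⊆ d.ZZ →
      ∀ (yl : T → Lb) (x₀ : T) (x : Fin (n + 1) → T), (∀ i, d.Near F Ω yl x₀ (x i)) →
        d.gl.II eκ (fun v => d.sgn v.u) w L Ω (d.Hv eτ yl) x = C * alt d.α fun i => yl (x i) := by
  classical
  refine ⟨(Fintype.card (Finset (JJ k)) : ℝ) * ((Nat.card d.LL : ℝ) *
    (((n + 1 + k).factorial * k.factorial : ℕ) * Bstd eκ eτ w L)), ?_,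
    fun Ω hΩ hZ yl x₀ x hx => ?_⟩
  · refine mul_ne_zero (Nat.cast_ne_zero.2 Fintype.card_ne_zero) (mul_ne_zero
      (Nat.cast_ne_zero.2 Nat.card_pos.ne') (mul_ne_zero (Nat.cast_ne_zero.2 ?_)
      (Bstd_ne_zero eκ eτ hw hε₀ hL)))
    exact mul_ne_zero (Nat.factorial_ne_zero _) (Nat.factorial_ne_zero _)
  · have h1 := d.finsum_VV (fun u => d.sgn u *
      if x₀ ∈ d.X ∅ u.1 then Bs eκ eτ w L u.1 (fun i => yl (x i)) else 0)
      ((d.finite_X x₀).subset fun u hu => by
        by_contra hc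
        exact hu (by simp only [if_neg (show x₀ ∉ d.X ∅ u.1 from hc), mul_zero]))
    have h2 : ∑ᶠ u : d.U, d.sgn u *
        (if x₀ ∈ d.X ∅ u.1 then Bs eκ eτ w L u.1 (fun i => yl (x i)) else 0) =
        ∑ᶠ u ∈ {u : d.U | x₀ ∈ d.X ∅ u.1}, d.sgn u * Bs eκ eτ w L u.1 fun i => yl (x i) := by
      rw [finsum_mem_def]
      refine finsum_congr fun u => ?_
      by_cases hu : x₀ ∈ d.X ∅ u.1
      · rw [if_pos hu, indicator_of_mem (show u ∈ {u : d.U | x₀ ∈ d.X ∅ u.1} from hu)]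
      · rw [if_neg hu, mul_zero, indicator_of_notMem (show u ∉ {u : d.U | x₀ ∈ d.X ∅ u.1} from hu)]
    rw [h2, sum_Bs eκ eτ hw hε L fun i => hF.sub _ (hx i).yl] at h1
    simp only [Gl.II, Gl.CI, cell_eval eκ eτ hF hw hε L hΩ hZ hx]
    rw [h1, Finset.sum_const, Finset.card_univ, nsmul_eq_mul]
    ring

/-- the vertex field is an admissible field -/
theorem fld_Hv {Ω : Set (T × d.gl.YY)} (hZ : Ω ⊆ d.ZZ) {yl : T → Lb}
    (hy : ∀ (g : Γ) x, yl (g • x) = g • yl x) (hO : ∀ x, x ∈ d.O (yl x)) :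
    d.gl.Fld Ω (d.Hv eτ yl) := by
  classical
  refine ⟨fun γ z _ => funext fun i => ?_, fun x g v => ?_⟩
  · rw [Hv, Hv, ← d.GG_smul γ _ z.2, Prod.smul_fst, Prod.smul_snd, hy]
    congr 1
    funext y
    simp only [Pi.single_apply, inv_smul_eq_iff]
  · have h1 : ContDiff ℝ 2 fun (ξ : KK k → ℝ) (i : Fin (r + n)) =>
        Gs v.u.1 (@Pi.single Lb (fun _ => ℝ) _ (fun a b => Classical.propDecidable (a = b))
          (yl x) 1) ξ (eτ i) :=
      contDiff_pi.2 fun i => contDiff_const.add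
        ((contDiff_pi.1 (contDiff_Gf v.u.1) (eτ i)).of_le (WithTop.coe_le_coe.2 (le_top (a := (2 : ℕ∞)))))
    refine h1.contDiffOn.congr fun ξ hξ => funext fun i => ?_
    rw [Hv, d.GG_sec hξ.1 (hZ hξ.2) fun y hy => ?_]
    obtain rfl : y = yl x := by
      by_contra hc
      exact hy (by simp [hc])
    exact hO x

theorem set0 [TopologicalSpace T] {Ω : Set (T × d.gl.YY)} (hΩ : IsOpen Ω) (hi : Inv Γ Ω)
    (hZ : Ω ⊆ d.ZZ) : d.gl.Set0 d.χ (fun v => d.sgn v.u) Ω :=
  ⟨fun γ v => d.sgn_smul γ v.u, hΩ, hi,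
    fun x => (d.finite_sec x).subset fun _ ⟨g, η, h1, h2⟩ => ⟨g, η, h1, hZ h2⟩,
    fun _ _ _ _ _ h1 h2 h3 => d.sgn_wall h1 h2 (hZ h3)⟩

end Dat

end Crest.Agent.N222.C
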